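import Vale.Agent.P363.Tool.Weak.Local

/-!
P363: the chain rule for weak gradients, positive parts, absolute values, maxima and truncations.
-/

noncomputable section

namespace Vale.Agent.P363

open MeasureTheory Set Filter Metric
open scoped BigOperators Topology ContDiff ENNReal

variable {U : Set Space} {f u : Space → ℝ} {F G : Fin 3 → Space → ℝ}

/-- A bounded almost everywhere convergent factor times an `L¹` convergent one. -/
lemma tendsto_integral_mul_of_L1 {w v : ℕ → Space → ℝ} {w₀ v₀ : Space → ℝ} {C : ℝ}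
    (hwm : ∀ k, AEStronglyMeasurable (w k) volume) (hwb : ∀ k x, |w k x| ≤ C)
    (hw : ∀ᵐ x, Tendsto (fun k => w k x) atTop (𝓝 (w₀ x))) (hv : ∀ k, Integrable (v k))
    (hv₀ : Integrable v₀) (hL : Tendsto (fun k => ∫ x, |v k x - v₀ x|) atTop (𝓝 0)) :
    Tendsto (fun k => ∫ x, w k x * v k x) atTop (𝓝 (∫ x, w₀ x * v₀ x)) := by
  have i1 : ∀ {z : Space → ℝ}, Integrable z → ∀ k, Integrable fun x => w k x * z x :=
    fun {z} hz k => hz.bdd_mul (hwm k) (.of_forall fun x => by simpa using hwb k x)
  have h1 : Tendsto (fun k => ∫ x, w k x * v₀ x) atTop (𝓝 (∫ x, w₀ x * v₀ x)) := by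
    refine tendsto_integral_of_dominated_convergence (fun x => C * |v₀ x|)
      (fun k => (i1 hv₀ k).aestronglyMeasurable) (hv₀.abs.const_mul C) (fun k => .of_forall fun x => ?_) ?_
    · rw [Real.norm_eq_abs, abs_mul]
      exact mul_le_mul_of_nonneg_right (hwb k x) (abs_nonneg _)
    · filter_upwards [hw] with x hx using hx.mul_const _
  have h2 : Tendsto (fun k => (∫ x, w k x * v k x) - ∫ x, w k x * v₀ x) atTop (𝓝 0) := by
    refine squeeze_zero_norm (fun k => ?_) (by simpa using hL.const_mul C)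
    rw [← integral_sub (i1 (hv k) k) (i1 hv₀ k), ← integral_const_mul]
    refine norm_integral_le_of_norm_le (((hv k).sub hv₀).abs.const_mul C) (.of_forall fun x => ?_)
    rw [Real.norm_eq_abs, ← mul_sub, abs_mul]
    exact mul_le_mul_of_nonneg_right (hwb k x) (abs_nonneg _)
  simpa using h2.add h1

lemma abs_sub_le_of_deriv_le {Φ : ℝ → ℝ} (hΦ : Differentiable ℝ Φ) {C : ℝ}
    (hC : ∀ t, |deriv Φ t| ≤ C) (s t : ℝ) : |Φ s - Φ t| ≤ C * |s - t| := by
  simpa using Convex.norm_image_sub_le_of_norm_deriv_le (f := Φ) (fun x _ => hΦ x)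
    (fun x _ => by simpa using hC x) convex_univ (mem_univ t) (mem_univ s)

namespace HasWeakGrad

/-- The chain rule. -/
lemma comp_C1 (hU : IsOpen U) (h : HasWeakGrad U f F) {Φ : ℝ → ℝ} (hΦ : ContDiff ℝ 1 Φ) {C : ℝ}
    (hC : ∀ t, |deriv Φ t| ≤ C) :
    HasWeakGrad U (fun x => Φ (f x)) fun a x => deriv Φ (f x) * F a x := by
  have hC0 : 0 ≤ C := (abs_nonneg _).trans (hC 0)
  have hd := hΦ.differentiable one_ne_zero
  have hlip := abs_sub_le_of_deriv_le hd hC
  have hdc : Continuous (deriv Φ) := hΦ.continuous_deriv_one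
  have hm : AEStronglyMeasurable f (volume.restrict U) := h.1.aestronglyMeasurable
  refine ⟨?_, fun a => ?_, fun η hη a => ?_⟩
  · refine locallyIntegrableOn_of_abs_le hU
      ((continuousOn_const (c := |Φ 0|)).locallyIntegrableOn hU.measurableSet |>.add
        ((h.1.norm).smul C)) (hΦ.continuous.comp_aestronglyMeasurable hm) (.of_forall fun x => ?_)
    have := hlip (f x) 0
    simp only [sub_zero] at this
    simp only [Pi.add_apply, Pi.smul_apply, smul_eq_mul, Real.norm_eq_abs]
    calc |Φ (f x)| = |(Φ (f x) - Φ 0) + Φ 0| := by rw [sub_add_cancel]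
      _ ≤ _ := (abs_add_le _ _).trans (by linarith)
  · refine locallyIntegrableOn_of_abs_le hU ((h.2.1 a).norm.smul C)
      ((hdc.comp_aestronglyMeasurable hm).mul (h.2.1 a).aestronglyMeasurable) (.of_forall fun x => ?_)
    simp only [Pi.smul_apply, smul_eq_mul, Real.norm_eq_abs, abs_mul]
    exact mul_le_mul_of_nonneg_right (hC _) (abs_nonneg _)
  obtain ⟨χ, hχ, -, W, hW, hKW, hW1⟩ := exists_cutoff hU hη.compact hη.supp
  obtain ⟨hG, hi, hiG⟩ := h.localize hU hχ
  set f₀ := fun x => χ x * f x with hf₀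
  set G := fun a x => χ x * F a x + deriv3 a χ x * f x with hG_def
  have hl : LocallyIntegrable f₀ := hi.locallyIntegrable
  set f' := fun k => moll k f₀ with hf'
  have hs : ∀ k, ContDiff ℝ 1 (f' k) := fun k => (contDiff_moll k hl).of_le (by simp)
  have hid : ∀ k, ∫ x, Φ (f' k x) * deriv3 a η x =
      -∫ x, (deriv Φ (f' k x) * η x) * moll k (G a) x := by
    intro k
    have hc : ContDiff ℝ 1 fun x => Φ (f' k x) := hΦ.comp (hs k)
    rw [(HasWeakGrad.of_contDiffOn isOpen_univ hc.contDiffOn).2.2 η hη.univ a]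
    congr 1
    refine integral_congr_ae (.of_forall fun x => ?_)
    have h1 := (hd (f' k x)).hasDerivAt.comp_hasFDerivAt x
      ((hs k).differentiable one_ne_zero x).hasFDerivAt
    have e : deriv3 a (fun y => Φ (f' k y)) x = deriv Φ (f' k x) * deriv3 a (f' k) x := by
      rw [deriv3, show (fun y => Φ (f' k y)) = Φ ∘ f' k from rfl, h1.fderiv]
      simp [deriv3]
    show deriv3 a (fun y => Φ (f' k y)) x * η x = _
    rw [e, deriv3_moll hG k a x]
    ring
  obtain ⟨E, hE⟩ := hη.compact.exists_bound_of_continuous hη.continuous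
  obtain ⟨E', hE'⟩ := (hη.deriv a).compact.exists_bound_of_continuous (hη.deriv a).continuous
  have hae := moll_tendsto_ae hl
  have R : Tendsto (fun k => ∫ x, (deriv Φ (f' k x) * η x) * moll k (G a) x) atTop
      (𝓝 (∫ x, (deriv Φ (f₀ x) * η x) * G a x)) := by
    refine tendsto_integral_mul_of_L1 (C := C * E)
      (fun k => ((hdc.comp (hs k).continuous).mul hη.continuous).aestronglyMeasurable)
      (fun k x => ?_) ?_ (fun k => (integrable_moll k (hiG a)).1) (hiG a)
      (moll_tendsto_L1 (hiG a))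
    · rw [abs_mul]
      exact mul_le_mul (hC _) (by simpa using hE x) (abs_nonneg _) hC0
    · filter_upwards [hae] with x hx
      exact ((hdc.tendsto _).comp hx).mul_const _
  have iL : ∀ {z : Space → ℝ}, Integrable z → Integrable fun x => Φ (z x) - Φ 0 := fun {z} hz =>
    (hz.abs.const_mul C).mono' ((hΦ.continuous.comp_aestronglyMeasurable hz.1).sub
      aestronglyMeasurable_const) (.of_forall fun x => by simpa using hlip (z x) 0)
  have iz : ∀ {z : Space → ℝ}, Integrable z → Integrable fun x => deriv3 a η x * (Φ (z x) - Φ 0) :=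
    fun {z} hz => (iL hz).bdd_mul (hη.deriv a).continuous.aestronglyMeasurable (.of_forall hE')
  have L : Tendsto (fun k => ∫ x, deriv3 a η x * (Φ (f' k x) - Φ 0)) atTop
      (𝓝 (∫ x, deriv3 a η x * (Φ (f₀ x) - Φ 0))) := by
    refine tendsto_integral_mul_of_L1 (C := E')
      (fun k => (hη.deriv a).continuous.aestronglyMeasurable) (fun k x => by simpa using hE' x)
      (.of_forall fun x => tendsto_const_nhds) (fun k => iL (integrable_moll k hi).1) (iL hi) ?_
    refine squeeze_zero (fun k => integral_nonneg fun x => abs_nonneg _) (fun k => ?_)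
      (by simpa using (moll_tendsto_L1 hi).const_mul C)
    rw [← integral_const_mul]
    refine integral_mono ((iL (integrable_moll k hi).1).sub (iL hi)).abs
      (((integrable_moll k hi).1.sub hi).abs.const_mul C) fun x => ?_
    simpa using hlip (f' k x) (f₀ x)
  have h0 : ∀ {z : Space → ℝ}, Integrable z → ∫ x, Φ (z x) * deriv3 a η x =
      ∫ x, deriv3 a η x * (Φ (z x) - Φ 0) := fun {z} hz => by
    have := integral_deriv3 (hη.smooth.of_le (by simp)) hη.compact a
    have ic : Integrable fun x => deriv3 a η x * Φ 0 :=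
      ((hη.deriv a).continuous.integrable_of_hasCompactSupport (hη.deriv a).compact).mul_const _
    calc ∫ x, Φ (z x) * deriv3 a η x
        = ∫ x, (deriv3 a η x * (Φ (z x) - Φ 0) + deriv3 a η x * Φ 0) :=
          integral_congr_ae (.of_forall fun x => by ring)
      _ = _ := by rw [integral_add (iz hz) ic, integral_mul_const, this, zero_mul, add_zero]
  have key : ∫ x, Φ (f₀ x) * deriv3 a η x = -∫ x, (deriv Φ (f₀ x) * η x) * G a x := by
    rw [h0 hi]
    refine tendsto_nhds_unique L ?_
    exact R.neg.congr fun k => ((h0 (integrable_moll k hi).1).symm.trans (hid k)).symm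
  have eW : ∀ x, η x ≠ 0 ∨ deriv3 a η x ≠ 0 → x ∈ W := fun x hx => hKW <| by
    by_contra hx'
    rcases hx with hx | hx
    · exact hx (image_eq_zero_of_notMem_tsupport hx')
    · exact hx (deriv3_eq_zero_of_notMem a hx')
  calc ∫ x, Φ (f x) * deriv3 a η x = ∫ x, Φ (f₀ x) * deriv3 a η x :=
        integral_congr_ae (.of_forall fun x => by
          by_cases hx : deriv3 a η x = 0
          · simp [hx]
          · simp [hf₀, hW1 x (eW x (.inr hx))])
    _ = _ := key
    _ = _ := by
        congr 1
        refine integral_congr_ae (.of_forall fun x => ?_)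
        by_cases hx : η x = 0
        · simp [hx]
        · have hxW := eW x (.inl hx)
          simp [hf₀, hG_def, hW1 x hxW, deriv3_eq_zero_of_eqOn_one hW hW1 a hxW]
          ring

end HasWeakGrad

/-! ### Positive part -/

/-- A smooth lower approximation of the positive part. -/
def posApprox (ε t : ℝ) : ℝ := Real.sqrt (max t 0 ^ 2 + ε ^ 2) - ε

/-- Its derivative. -/
def posApproxD (ε t : ℝ) : ℝ := max t 0 / Real.sqrt (max t 0 ^ 2 + ε ^ 2)

lemma hasDerivAt_max_sq (t : ℝ) : HasDerivAt (fun s : ℝ => max s 0 ^ 2) (2 * max t 0) t := by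
  refine hasDerivAt_of_hasDerivAt_of_ne' (x := 0) (g := fun s => 2 * max s 0) (fun s hs => ?_)
    (by fun_prop) (by fun_prop) t
  rcases lt_or_gt_of_ne hs with h | h
  · have : (fun r : ℝ => max r 0 ^ 2) =ᶠ[𝓝 s] fun _ => 0 := by
      filter_upwards [Iio_mem_nhds h] with r hr
      simp [max_eq_right (mem_Iio.1 hr).le]
    rw [max_eq_right h.le, mul_zero]
    exact (hasDerivAt_const s (0 : ℝ)).congr_of_eventuallyEq this
  · have : (fun r : ℝ => max r 0 ^ 2) =ᶠ[𝓝 s] fun r => r ^ 2 := by
      filter_upwards [Ioi_mem_nhds h] with r hr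
      simp [max_eq_left (mem_Ioi.1 hr).le]
    rw [max_eq_left h.le]
    exact (((hasDerivAt_id' s).pow 2).congr_deriv (by simp)).congr_of_eventuallyEq this

lemma posApprox_props {ε : ℝ} (hε : 0 < ε) :
    ContDiff ℝ 1 (posApprox ε) ∧ deriv (posApprox ε) = posApproxD ε ∧
      (∀ t, |posApproxD ε t| ≤ 1) ∧ ∀ t, |posApprox ε t| ≤ |t| := by
  have hpos : ∀ t, 0 < max t 0 ^ 2 + ε ^ 2 := fun t => by positivity
  have hd : ∀ t, HasDerivAt (posApprox ε) (posApproxD ε t) t := fun t =>
    ((((hasDerivAt_max_sq t).add_const (ε ^ 2)).sqrt (hpos t).ne').sub_const ε).congr_deriv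
      (by rw [posApproxD]; field_simp)
  have hdd : deriv (posApprox ε) = posApproxD ε := funext fun t => (hd t).deriv
  refine ⟨contDiff_one_iff_deriv.2 ⟨fun t => (hd t).differentiableAt, ?_⟩, hdd, fun t => ?_,
    fun t => ?_⟩
  · rw [hdd]
    exact (by fun_prop : Continuous fun t : ℝ => max t 0).div (by fun_prop)
      fun t => (Real.sqrt_pos.2 (hpos t)).ne'
  · rw [posApproxD, abs_div, abs_of_nonneg (le_max_right _ _), abs_of_nonneg (Real.sqrt_nonneg _),
      div_le_one (Real.sqrt_pos.2 (hpos t))]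
    exact Real.le_sqrt_of_sq_le (by nlinarith)
  · have h1 : ε ≤ Real.sqrt (max t 0 ^ 2 + ε ^ 2) :=
      Real.le_sqrt_of_sq_le (by nlinarith [sq_nonneg (max t 0)])
    have h2 : Real.sqrt (max t 0 ^ 2 + ε ^ 2) ≤ max t 0 + ε :=
      (Real.sqrt_le_iff).2 ⟨by positivity, by nlinarith [le_max_right t 0]⟩
    rw [posApprox, abs_of_nonneg (sub_nonneg.2 h1)]
    exact (by linarith : _ ≤ max t 0).trans (max_le (le_abs_self t) (abs_nonneg t))

lemma posApprox_tendsto (t : ℝ) :
    Tendsto (fun n : ℕ => posApprox (1 / ((n : ℝ) + 1)) t) atTop (𝓝 (max t 0)) ∧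
      Tendsto (fun n : ℕ => posApproxD (1 / ((n : ℝ) + 1)) t) atTop
        (𝓝 (if 0 < t then 1 else 0)) := by
  have he : Tendsto (fun n : ℕ => (1 : ℝ) / ((n : ℝ) + 1)) atTop (𝓝 0) :=
    tendsto_one_div_add_atTop_nhds_zero_nat
  refine ⟨?_, ?_⟩
  · have := ((by fun_prop : Continuous fun e : ℝ => Real.sqrt (max t 0 ^ 2 + e ^ 2) - e).tendsto 0).comp he
    simpa [posApprox, Function.comp_def, Real.sqrt_sq (le_max_right t 0)] using this
  · split_ifs with ht
    · have hc : ContinuousAt (fun e : ℝ => max t 0 / Real.sqrt (max t 0 ^ 2 + e ^ 2)) 0 := by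
        refine continuousAt_const.div (by fun_prop) ?_
        rw [zero_pow two_ne_zero, add_zero, max_eq_left ht.le, Real.sqrt_sq ht.le]
        exact ht.ne'
      have := hc.tendsto.comp he
      simpa [posApproxD, Function.comp_def, max_eq_left ht.le, Real.sqrt_sq ht.le, ht.ne'] using this
    · simp [posApproxD, max_eq_right (not_lt.1 ht)]

namespace HasWeakGrad

/-- The positive part. -/
lemma posPart (hU : IsOpen U) (h : HasWeakGrad U f F) :
    HasWeakGrad U (fun x => max (f x) 0) fun a x => if 0 < f x then F a x else 0 := by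
  have hp := fun n : ℕ => posApprox_props (ε := 1 / ((n : ℝ) + 1)) (by positivity)
  have hn : ∀ n : ℕ, HasWeakGrad U (fun x => posApprox (1 / ((n : ℝ) + 1)) (f x))
      fun a x => posApproxD (1 / ((n : ℝ) + 1)) (f x) * F a x := fun n => by
    have := h.comp_C1 hU (hp n).1 (C := 1) (fun t => by rw [(hp n).2.1]; exact (hp n).2.2.1 t)
    rwa [(hp n).2.1] at this
  refine of_tendsto_ae hU hn h.1.norm (fun a => (h.2.1 a).norm)
    (fun n => .of_forall fun x => (hp n).2.2.2 _)
    (.of_forall fun x => (posApprox_tendsto _).1)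
    (fun n a => .of_forall fun x => ?_) (fun a => .of_forall fun x => ?_)
  · rw [abs_mul, Real.norm_eq_abs]
    exact mul_le_of_le_one_left (abs_nonneg _) ((hp n).2.2.1 _)
  · simpa using (posApprox_tendsto (f x)).2.mul_const (F a x)

/-- The gradient vanishes almost everywhere on a level set. -/
lemma ae_eq_zero_of_eq (hU : IsOpen U) (h : HasWeakGrad U f F) (c : ℝ) (a : Fin 3) :
    ∀ᵐ x ∂volume.restrict U, f x = c → F a x = 0 := by
  have h1 := h.sub (HasWeakGrad.const hU c)
  have h2 := (h1.posPart hU).sub (h1.neg.posPart hU)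
  have h3 := h1.congr_ae hU (f' := fun x => max (f x - c) 0 - max (-(f x - c)) 0)
    (.of_forall fun x => (max_zero_sub_max_neg_zero_eq_self _).symm) (fun _ => ae_eq_refl _)
  filter_upwards [h3.unique hU h2 a] with x hx hfx
  simpa [hfx] using hx

/-- The absolute value. -/
lemma abs (hU : IsOpen U) (h : HasWeakGrad U f F) :
    HasWeakGrad U (fun x => |f x|) fun a x => Real.sign (f x) * F a x := by
  refine ((h.posPart hU).add (h.neg.posPart hU)).congr_ae hU (.of_forall fun x => ?_)
    fun a => .of_forall fun x => ?_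
  · rcases le_total (f x) 0 with hx | hx
    · simp [max_eq_right hx, max_eq_left (neg_nonneg.2 hx), abs_of_nonpos hx]
    · simp [max_eq_left hx, max_eq_right (neg_nonpos.2 hx), abs_of_nonneg hx]
  · rcases lt_trichotomy (f x) 0 with hx | hx | hx
    · simp [Real.sign_of_neg hx, hx, not_lt.2 hx.le]
    · simp [hx]
    · simp [Real.sign_of_pos hx, hx, not_lt.2 hx.le]

/-- The maximum. -/
lemma max (hU : IsOpen U) (h : HasWeakGrad U f F) (h' : HasWeakGrad U u G) :
    HasWeakGrad U (fun x => max (f x) (u x)) fun a x => if u x < f x then F a x else G a x := by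
  refine (h'.add ((h.sub h').posPart hU)).congr_ae hU (.of_forall fun x => ?_)
    fun a => .of_forall fun x => ?_
  · rcases le_total (f x) (u x) with hx | hx
    · simp [max_eq_right hx, max_eq_right (sub_nonpos.2 hx)]
    · simp [max_eq_left hx, max_eq_left (sub_nonneg.2 hx)]
  · simp only [sub_pos]
    split_ifs <;> simp

/-- The minimum. -/
lemma min (hU : IsOpen U) (h : HasWeakGrad U f F) (h' : HasWeakGrad U u G) :
    HasWeakGrad U (fun x => min (f x) (u x)) fun a x => if u x < f x then G a x else F a x := by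
  refine (h.sub ((h.sub h').posPart hU)).congr_ae hU (.of_forall fun x => ?_)
    fun a => .of_forall fun x => ?_
  · rcases le_total (f x) (u x) with hx | hx
    · simp [min_eq_left hx, max_eq_right (sub_nonpos.2 hx)]
    · simp [min_eq_right hx, max_eq_left (sub_nonneg.2 hx)]
  · simp only [sub_pos]
    split_ifs <;> simp

/-- Truncation at height `M`. -/
lemma clamp (hU : IsOpen U) (h : HasWeakGrad U f F) {M : ℝ} (hM : 0 ≤ M) :
    HasWeakGrad U (fun x => Max.max (-M) (Min.min M (f x)))
      fun a x => if -M < f x ∧ f x < M then F a x else 0 := by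
  refine ((((HasWeakGrad.const hU M).min hU h)).max hU (HasWeakGrad.const hU (-M))).congr_ae hU
    (.of_forall fun x => max_comm _ _) fun a => ?_
  filter_upwards [h.ae_eq_zero_of_eq hU (-M) a] with x hx
  by_cases h1 : f x < M
  · by_cases h2 : -M < f x
    · simp [h1, h2, min_eq_right h1.le]
    · simp [h1, h2, min_eq_right h1.le]
  · by_cases h2 : -M < Min.min M (f x)
    · simp [h1, h2]
    · simp [h1, h2]

end HasWeakGrad

end Vale.Agent.P363
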