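import Vale.Agent.P363.Tool.Weak.Basic

/-!
P363: weak Poisson equations and inequalities: linearity, uniqueness of the right-hand side, smooth
functions, the form with the weak gradient, smooth multipliers.
-/

noncomputable section

namespace Vale.Agent.P363

open MeasureTheory Set Filter
open scoped BigOperators Topology ContDiff

variable {U V : Set Space} {η θ : Space → ℝ} {f f' h h' : Space → ℝ} {F : Fin 3 → Space → ℝ}

namespace WeakPoisson

lemma mono (e : WeakPoisson U f h) (hVU : V ⊆ U) : WeakPoisson V f h :=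
  ⟨e.1.mono_set hVU, e.2.1.mono_set hVU, fun η hη => e.2.2 η (hη.mono hVU)⟩

lemma congr_ae (hU : IsOpen U) (e : WeakPoisson U f h) (hf : f =ᵐ[volume.restrict U] f')
    (hh : h =ᵐ[volume.restrict U] h') : WeakPoisson U f' h' := by
  refine ⟨e.1.congr hf, e.2.1.congr hh, fun η hη => ?_⟩
  rw [← integral_congr_of_ae_mem hU.measurableSet hf fun x hx => hη.lap.eq_zero hx,
    ← integral_congr_of_ae_mem hU.measurableSet hh fun x hx => hη.eq_zero hx]
  exact e.2.2 η hη

lemma add (e : WeakPoisson U f h) (e' : WeakPoisson U f' h') :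
    WeakPoisson U (fun x => f x + f' x) fun x => h x + h' x := by
  refine ⟨e.1.add e'.1, e.2.1.add e'.2.1, fun η hη => ?_⟩
  simp only [add_mul]
  rw [integral_add (hη.integrable_mul_lap e.1) (hη.integrable_mul_lap e'.1),
    integral_add (hη.integrable_mul e.2.1) (hη.integrable_mul e'.2.1), e.2.2 η hη, e'.2.2 η hη]

lemma const_mul (e : WeakPoisson U f h) (c : ℝ) :
    WeakPoisson U (fun x => c * f x) fun x => c * h x := by
  refine ⟨e.1.smul c, e.2.1.smul c, fun η hη => ?_⟩
  simp only [mul_assoc, integral_const_mul, e.2.2 η hη]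

lemma sub (e : WeakPoisson U f h) (e' : WeakPoisson U f' h') :
    WeakPoisson U (fun x => f x - f' x) fun x => h x - h' x := by
  simpa only [neg_one_mul, ← sub_eq_add_neg] using e.add (e'.const_mul (-1))

lemma unique (hU : IsOpen U) (e : WeakPoisson U f h) (e' : WeakPoisson U f h') :
    h =ᵐ[volume.restrict U] h' := by
  refine (ae_restrict_iff' hU.measurableSet).2 ?_
  have := hU.ae_eq_zero_of_integral_contDiff_smul_eq_zero (e.2.1.sub e'.2.1) ?_
  · filter_upwards [this] with x hx hxU
    exact sub_eq_zero.1 (hx hxU)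
  intro φ hφ hc hs
  have hη : IsBump U φ := ⟨hφ, hc, hs⟩
  simp only [smul_eq_mul, Pi.sub_apply, mul_comm (φ _), sub_mul]
  rw [integral_sub (hη.integrable_mul e.2.1) (hη.integrable_mul e'.2.1)]
  linarith [e.2.2 φ hη, e'.2.2 φ hη]

/-- The equation through the weak gradient. -/
lemma grad_eq (e : WeakPoisson U f h) (g : HasWeakGrad U f F) (hη : IsBump U η) :
    ∫ x, ∑ a, F a x * deriv3 a η x = -∫ x, h x * η x := by
  rw [integral_finsetSum _ fun a _ => (hη.deriv a).integrable_mul (g.2.1 a), ← e.2.2 η hη]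
  simp only [lap, Finset.mul_sum]
  rw [integral_finsetSum _ fun a _ => ((hη.deriv a).deriv a).integrable_mul e.1,
    ← Finset.sum_neg_distrib]
  exact Finset.sum_congr rfl fun a _ => by linarith [g.2.2 _ (hη.deriv a) a]

lemma of_grad (g : HasWeakGrad U f F) (hh : LocallyIntegrableOn h U)
    (e : ∀ η, IsBump U η → ∫ x, ∑ a, F a x * deriv3 a η x = -∫ x, h x * η x) :
    WeakPoisson U f h := by
  refine ⟨g.1, hh, fun η hη => ?_⟩
  have := e η hη
  rw [integral_finsetSum _ fun a _ => (hη.deriv a).integrable_mul (g.2.1 a)] at this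
  simp only [lap, Finset.mul_sum]
  rw [integral_finsetSum _ fun a _ => ((hη.deriv a).deriv a).integrable_mul g.1]
  rw [Finset.sum_congr rfl fun a _ => g.2.2 _ (hη.deriv a) a, Finset.sum_neg_distrib, this, neg_neg]

/-- A twice continuously differentiable function. -/
lemma of_contDiffOn (hU : IsOpen U) (hf : ContDiffOn ℝ 2 f U) : WeakPoisson U f (lap f) := by
  have hd : ∀ a, ContDiffOn ℝ 1 (deriv3 a f) U := fun a =>
    (hf.fderiv_of_isOpen hU (by norm_num)).clm_apply contDiffOn_const
  have g := HasWeakGrad.of_contDiffOn hU (hf.of_le (by norm_num))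
  have li : ∀ a, LocallyIntegrableOn (deriv3 a (deriv3 a f)) U := fun a =>
    (continuousOn_deriv3 hU (hd a) a).locallyIntegrableOn hU.measurableSet
  refine of_grad g ((continuousOn_finsetSum _ fun a _ => continuousOn_deriv3 hU (hd a) a :
    ContinuousOn (lap f) U).locallyIntegrableOn hU.measurableSet) fun η hη => ?_
  rw [integral_finsetSum _ fun a _ => (hη.deriv a).integrable_mul (g.2.1 a)]
  simp only [lap, Finset.sum_mul]
  rw [integral_finsetSum _ fun a _ => hη.integrable_mul (li a), ← Finset.sum_neg_distrib]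
  exact Finset.sum_congr rfl fun a _ =>
    (HasWeakGrad.of_contDiffOn hU (hd a)).2.2 η hη a

/-- Product with a smooth function. -/
lemma mul_smooth (hU : IsOpen U) (e : WeakPoisson U f h) (g : HasWeakGrad U f F)
    (hθ : ContDiffOn ℝ ∞ θ U) :
    WeakPoisson U (fun x => θ x * f x) fun x =>
      θ x * h x + 2 * (∑ a, deriv3 a θ x * F a x) + lap θ x * f x := by
  have hdθ : ∀ a, ContDiffOn ℝ ∞ (deriv3 a θ) U := fun a =>
    (hθ.fderiv_of_isOpen hU le_rfl).clm_apply contDiffOn_const
  have L : ∀ {u φ : Space → ℝ}, LocallyIntegrableOn u U → ContinuousOn φ U →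
      LocallyIntegrableOn (fun x => φ x * u x) U := fun {u φ} hu hφ =>
    hu.continuousOn_mul hφ hU.isLocallyClosed
  have cl : ContinuousOn (lap θ) U :=
    continuousOn_finsetSum _ fun a _ => continuousOn_deriv3 hU ((hdθ a).of_le (by simp)) a
  have l1 : LocallyIntegrableOn (fun x => θ x * h x) U := L e.2.1 hθ.continuousOn
  have l2 : LocallyIntegrableOn (fun x => 2 * ∑ a, deriv3 a θ x * F a x) U := by
    simp only [Fin.sum_univ_three]
    exact (((L (g.2.1 0) (hdθ 0).continuousOn).add (L (g.2.1 1) (hdθ 1).continuousOn)).add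
      (L (g.2.1 2) (hdθ 2).continuousOn)).smul (2 : ℝ)
  have l3 : LocallyIntegrableOn (fun x => lap θ x * f x) U := L e.1 cl
  refine of_grad (g.mul_smooth hU hθ) ((l1.add l2).add l3) fun η hη => ?_
  -- the pieces
  have hb : ∀ a, IsBump U fun x => deriv3 a θ x * η x := fun a => hη.mul_left hU (hdθ a)
  have key := e.grad_eq g (hη.mul_left hU hθ)
  have d1 : ∀ a x, deriv3 a (fun y => θ y * η y) x =
      deriv3 a θ x * η x + θ x * deriv3 a η x := by
    intro a x
    by_cases hx : x ∈ U
    · exact deriv3_mul ((hθ.contDiffAt (hU.mem_nhds hx)).differentiableAt (by simp))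
        (hη.differentiable x) a
    · rw [((hη.mul_left hU hθ).deriv a).eq_zero hx, hη.eq_zero hx, (hη.deriv a).eq_zero hx]
      ring
  have d2 : ∀ a x, deriv3 a (fun y => deriv3 a θ y * η y) x =
      deriv3 a (deriv3 a θ) x * η x + deriv3 a θ x * deriv3 a η x := by
    intro a x
    by_cases hx : x ∈ U
    · exact deriv3_mul (((hdθ a).contDiffAt (hU.mem_nhds hx)).differentiableAt (by simp))
        (hη.differentiable x) a
    · rw [((hb a).deriv a).eq_zero hx, hη.eq_zero hx, (hη.deriv a).eq_zero hx]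
      ring
  have k2 : ∀ a, (∫ x, (deriv3 a θ x * f x) * deriv3 a η x) =
      -(∫ x, (deriv3 a (deriv3 a θ) x * f x) * η x) - ∫ x, F a x * (deriv3 a θ x * η x) := by
    intro a
    have h0 := g.2.2 _ (hb a) a
    have i1 := hη.integrable_mul (L e.1 (continuousOn_deriv3 hU ((hdθ a).of_le (by simp)) a))
    have i2 := hη.integrable_mul_deriv (L e.1 (hdθ a).continuousOn) a
    have h1 : ∫ x, f x * deriv3 a (fun y => deriv3 a θ y * η y) x =
        (∫ x, (deriv3 a (deriv3 a θ) x * f x) * η x) +
          ∫ x, (deriv3 a θ x * f x) * deriv3 a η x := by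
      rw [← integral_add i1 i2]
      exact integral_congr_ae (.of_forall fun x => by simp only [d2]; ring)
    linarith
  have i0 : ∀ a, Integrable fun x => F a x * deriv3 a (fun y => θ y * η y) x := fun a =>
    ((hη.mul_left hU hθ).deriv a).integrable_mul (g.2.1 a)
  have i1 : ∀ a, Integrable fun x => F a x * (deriv3 a θ x * η x) := fun a =>
    (hb a).integrable_mul (g.2.1 a)
  have i2 : ∀ a, Integrable fun x => (deriv3 a θ x * f x) * deriv3 a η x := fun a =>
    hη.integrable_mul_deriv (L e.1 (hdθ a).continuousOn) a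
  have i3 : ∀ a, Integrable fun x => (deriv3 a (deriv3 a θ) x * f x) * η x := fun a =>
    hη.integrable_mul (L e.1 (continuousOn_deriv3 hU ((hdθ a).of_le (by simp)) a))
  have lhs : ∫ x, ∑ a, (θ x * F a x + deriv3 a θ x * f x) * deriv3 a η x =
      ∑ a, ((∫ x, F a x * deriv3 a (fun y => θ y * η y) x) -
        (∫ x, F a x * (deriv3 a θ x * η x)) + ∫ x, (deriv3 a θ x * f x) * deriv3 a η x) := by
    rw [integral_finsetSum _ fun a _ => ?_]
    · refine Finset.sum_congr rfl fun a _ => ?_
      rw [← integral_sub (i0 a) (i1 a), ← integral_add ?_ (i2 a)]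
      · exact integral_congr_ae (.of_forall fun x => by simp only [d1]; ring)
      · exact (i0 a).sub (i1 a)
    · exact (hη.deriv a).integrable_mul ((g.mul_smooth hU hθ).2.1 a)
  have rhs : ∫ x, (θ x * h x + 2 * (∑ a, deriv3 a θ x * F a x) + lap θ x * f x) * η x =
      (∫ x, h x * (θ x * η x)) + (∑ a, 2 * ∫ x, F a x * (deriv3 a θ x * η x)) +
        ∑ a, ∫ x, (deriv3 a (deriv3 a θ) x * f x) * η x := by
    simp only [← integral_const_mul]
    have iA : Integrable fun x => h x * (θ x * η x) := (hη.mul_left hU hθ).integrable_mul e.2.1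
    have iB : Integrable fun x => ∑ a, 2 * (F a x * (deriv3 a θ x * η x)) :=
      integrable_finsetSum _ fun a _ => (i1 a).const_mul 2
    have iC : Integrable fun x => ∑ a, deriv3 a (deriv3 a θ) x * f x * η x :=
      integrable_finsetSum _ fun a _ => i3 a
    have iAB : Integrable fun x => h x * (θ x * η x) + ∑ a, 2 * (F a x * (deriv3 a θ x * η x)) :=
      iA.add iB
    rw [← integral_finsetSum _ fun a _ => (i1 a).const_mul 2,
      ← integral_finsetSum _ fun a _ => i3 a, ← integral_add iA iB, ← integral_add iAB iC]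
    exact integral_congr_ae (.of_forall fun x => by
      simp only [lap, Fin.sum_univ_three]; ring)
  have key' : ∑ a, ∫ x, F a x * deriv3 a (fun y => θ y * η y) x =
      -∫ x, h x * (θ x * η x) := by
    rw [← integral_finsetSum _ fun a _ => i0 a]; exact key
  rw [lhs, rhs]
  simp only [k2, Fin.sum_univ_three] at *
  linarith

lemma toSub (e : WeakPoisson U f h) : WeakSubPoisson U f h :=
  ⟨e.1, e.2.1, fun η hη _ => (e.2.2 η hη).ge⟩

end WeakPoisson

namespace WeakSubPoisson

lemma mono (e : WeakSubPoisson U f h) (hVU : V ⊆ U) : WeakSubPoisson V f h :=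
  ⟨e.1.mono_set hVU, e.2.1.mono_set hVU, fun η hη => e.2.2 η (hη.mono hVU)⟩

lemma congr_ae (hU : IsOpen U) (e : WeakSubPoisson U f h) (hf : f =ᵐ[volume.restrict U] f')
    (hh : h =ᵐ[volume.restrict U] h') : WeakSubPoisson U f' h' := by
  refine ⟨e.1.congr hf, e.2.1.congr hh, fun η hη h0 => ?_⟩
  rw [← integral_congr_of_ae_mem hU.measurableSet hf fun x hx => hη.lap.eq_zero hx,
    ← integral_congr_of_ae_mem hU.measurableSet hh fun x hx => hη.eq_zero hx]
  exact e.2.2 η hη h0

lemma add (e : WeakSubPoisson U f h) (e' : WeakSubPoisson U f' h') :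
    WeakSubPoisson U (fun x => f x + f' x) fun x => h x + h' x := by
  refine ⟨e.1.add e'.1, e.2.1.add e'.2.1, fun η hη h0 => ?_⟩
  simp only [add_mul]
  rw [integral_add (hη.integrable_mul_lap e.1) (hη.integrable_mul_lap e'.1),
    integral_add (hη.integrable_mul e.2.1) (hη.integrable_mul e'.2.1)]
  exact add_le_add (e.2.2 η hη h0) (e'.2.2 η hη h0)

lemma const_mul (e : WeakSubPoisson U f h) {c : ℝ} (hc : 0 ≤ c) :
    WeakSubPoisson U (fun x => c * f x) fun x => c * h x := by
  refine ⟨e.1.smul c, e.2.1.smul c, fun η hη h0 => ?_⟩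
  simp only [mul_assoc, integral_const_mul]
  exact mul_le_mul_of_nonneg_left (e.2.2 η hη h0) hc

lemma weaken (e : WeakSubPoisson U f h) (hh' : LocallyIntegrableOn h' U)
    (hle : h' ≤ᵐ[volume.restrict U] h) (hU : IsOpen U) : WeakSubPoisson U f h' := by
  refine ⟨e.1, hh', fun η hη h0 => le_trans ?_ (e.2.2 η hη h0)⟩
  refine integral_mono_ae (hη.integrable_mul hh') (hη.integrable_mul e.2.1) ?_
  filter_upwards [(ae_restrict_iff' hU.measurableSet).1 hle] with x hx
  by_cases hxU : x ∈ U
  · exact mul_le_mul_of_nonneg_right (hx hxU) (h0 x)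
  · simp [hη.eq_zero hxU]

end WeakSubPoisson

end Vale.Agent.P363
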