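import Vale.Agent.P363.Tool.Weak.Basic

/-!
P363: mollification: derivatives of mollified weakly differentiable functions, and convergence in
`L¹`, in `L²` and almost everywhere.
-/

noncomputable section

namespace Vale.Agent.P363

open MeasureTheory Set Filter Metric ContinuousLinearMap
open scoped BigOperators Topology ContDiff Convolution

/-- The bump of radius `1 / (k + 1)`. -/
def mollBump (k : ℕ) : ContDiffBump (0 : Space) where
  rIn := 1 / (2 * ((k : ℝ) + 1))
  rOut := 1 / ((k : ℝ) + 1)
  rIn_pos := by positivity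
  rIn_lt_rOut := one_div_lt_one_div_of_lt (by positivity) (by linarith [(k.cast_nonneg : (0 : ℝ) ≤ k)])

/-- The mollifier of radius `1 / (k + 1)`. -/
def mollKer (k : ℕ) : Space → ℝ := (mollBump k).normed volume

/-- The mollified function. -/
def moll (k : ℕ) (f : Space → ℝ) : Space → ℝ :=
  mollKer k ⋆[lsmul ℝ ℝ, volume] f

lemma mollKer_smooth (k : ℕ) : ContDiff ℝ ∞ (mollKer k) := (mollBump k).contDiff_normed

lemma mollKer_compact (k : ℕ) : HasCompactSupport (mollKer k) :=
  (mollBump k).hasCompactSupport_normed

lemma mollKer_nonneg (k : ℕ) (x : Space) : 0 ≤ mollKer k x := (mollBump k).nonneg_normed x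

lemma mollKer_integral (k : ℕ) : ∫ x, mollKer k x = 1 := (mollBump k).integral_normed

lemma mollKer_small {k : ℕ} {x : Space} (h : mollKer k x ≠ 0) : ‖x‖ < 1 / ((k : ℝ) + 1) := by
  have : x ∈ Function.support (mollKer k) := h
  rw [mollKer, (mollBump k).support_normed_eq, mem_ball_zero_iff] at this
  exact this

lemma tendsto_rOut : Tendsto (fun k : ℕ => (mollBump k).rOut) atTop (𝓝 0) :=
  tendsto_one_div_add_atTop_nhds_zero_nat

lemma moll_eq (k : ℕ) (f : Space → ℝ) (x : Space) :
    moll k f x = ∫ t, mollKer k t * f (x - t) := by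
  simp [moll, convolution_def]

lemma moll_eq' (k : ℕ) (f : Space → ℝ) (x : Space) :
    moll k f x = ∫ y, mollKer k (x - y) * f y := by
  rw [moll, convolution_eq_swap]
  simp

variable {f g : Space → ℝ}

lemma moll_integrand (k : ℕ) (hf : LocallyIntegrable f) (x : Space) :
    Integrable fun t => mollKer k t * f (x - t) := by
  simpa [ConvolutionExistsAt] using (mollKer_compact k).convolutionExists_left (lsmul ℝ ℝ)
    (mollKer_smooth k).continuous hf x

lemma contDiff_moll (k : ℕ) (hf : LocallyIntegrable f) : ContDiff ℝ ∞ (moll k f) :=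
  (mollKer_compact k).contDiff_convolution_left _ (mollKer_smooth k) hf

lemma moll_eq_zero (k : ℕ) {x : Space} {r : ℝ} (h : ∀ y, f y ≠ 0 → r ≤ dist x y)
    (hr : 1 / ((k : ℝ) + 1) ≤ r) : moll k f x = 0 := by
  rw [moll_eq]
  refine integral_eq_zero_of_ae (.of_forall fun t => ?_)
  by_contra hne
  obtain ⟨h1, h2⟩ := mul_ne_zero_iff.1 hne
  have := h _ h2
  rw [dist_eq_norm, sub_sub_cancel] at this
  linarith [mollKer_small h1]

lemma tsupport_moll_subset {K : Set Space} (hK : ∀ x ∉ K, f x = 0) (k : ℕ) :
    tsupport (moll k f) ⊆ cthickening (1 / ((k : ℝ) + 1)) K := by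
  refine closure_minimal (fun x hx => ?_) isClosed_cthickening
  by_contra hc
  refine hx (moll_eq_zero k (fun y hy => ?_) le_rfl)
  by_contra hlt
  push Not at hlt
  exact hc (mem_cthickening_of_dist_le x y _ K (by by_contra hyK; exact hy (hK y hyK)) hlt.le)

lemma isBump_moll {K U : Set Space} (hf : LocallyIntegrable f) (hKc : IsCompact K)
    (hK : ∀ x ∉ K, f x = 0) {k : ℕ} (hU : cthickening (1 / ((k : ℝ) + 1)) K ⊆ U) :
    IsBump U (moll k f) :=
  ⟨contDiff_moll k hf, hKc.cthickening.of_isClosed_subset (isClosed_tsupport _)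
    (tsupport_moll_subset hK k), (tsupport_moll_subset hK k).trans hU⟩

lemma eventually_cthickening_subset {K U : Set Space} (hKc : IsCompact K) (hU : IsOpen U)
    (hKU : K ⊆ U) : ∀ᶠ k : ℕ in atTop, cthickening (1 / ((k : ℝ) + 1)) K ⊆ U := by
  obtain ⟨δ, hδ, hs⟩ := hKc.exists_cthickening_subset_open hU hKU
  filter_upwards [tendsto_one_div_add_atTop_nhds_zero_nat.eventually_lt_const hδ] with k hk
  exact (cthickening_mono hk.le K).trans hs

/-- The derivative of a mollified function is the mollified weak derivative. -/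
lemma deriv3_moll {F : Fin 3 → Space → ℝ} (h : HasWeakGrad Set.univ f F) (k : ℕ) (a : Fin 3)
    (x : Space) : deriv3 a (moll k f) x = moll k (F a) x := by
  have hf : LocallyIntegrable f := locallyIntegrableOn_univ.1 h.1
  have hd : deriv3 a (moll k f) x = ∫ t, deriv3 a (mollKer k) (x - t) * f t := by
    have hc := (mollKer_compact k).hasFDerivAt_convolution_left (lsmul ℝ ℝ)
      ((mollKer_smooth k).of_le (by simp)) hf x
    rw [deriv3, moll, hc.fderiv, convolution_eq_swap, integral_apply]
    · simp [deriv3, precompL_apply]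
    · exact ((mollKer_compact k).fderiv ℝ).convolutionExists_left _
        ((mollKer_smooth k).continuous_fderiv (by simp)) hf x |>.integrable_swap
  have hη : IsBump Set.univ fun y => mollKer k (x - y) :=
    ⟨(mollKer_smooth k).comp (contDiff_const.sub contDiff_id),
      (mollKer_compact k).comp_homeomorph (Homeomorph.subLeft x), subset_univ _⟩
  have e : ∀ y, deriv3 a (fun y => mollKer k (x - y)) y = -deriv3 a (mollKer k) (x - y) := by
    intro y
    have h1 : HasFDerivAt (fun y => mollKer k (x - y))
        ((fderiv ℝ (mollKer k) (x - y)).comp (-ContinuousLinearMap.id ℝ Space)) y :=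
      (((mollKer_smooth k).differentiable (by simp)) (x - y)).hasFDerivAt.comp y
        ((hasFDerivAt_id y).const_sub x)
    simp [deriv3, h1.fderiv]
  have key := h.2.2 _ hη a
  simp only [e, mul_neg, integral_neg, neg_inj] at key
  rw [hd, moll_eq']
  rw [show ∫ t, deriv3 a (mollKer k) (x - t) * f t = ∫ t, f t * deriv3 a (mollKer k) (x - t) from
    integral_congr_ae (.of_forall fun t => mul_comm _ _), key]
  exact integral_congr_ae (.of_forall fun t => mul_comm _ _)

lemma moll_sub (k : ℕ) (hf : LocallyIntegrable f) (hg : LocallyIntegrable g) (x : Space) :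
    moll k (fun y => f y - g y) x = moll k f x - moll k g x := by
  simp only [moll_eq, mul_sub]
  exact integral_sub (moll_integrand k hf x) (moll_integrand k hg x)

lemma abs_moll_le (k : ℕ) (f : Space → ℝ) (x : Space) :
    |moll k f x| ≤ moll k (fun y => |f y|) x := by
  rw [moll_eq, moll_eq]
  refine abs_integral_le_integral_abs.trans_eq ?_
  simp [abs_mul, abs_of_nonneg (mollKer_nonneg k _)]

lemma abs_moll_le_of_bdd (k : ℕ) {C : ℝ} (hC : ∀ y, |f y| ≤ C) (x : Space) :
    |moll k f x| ≤ C := by
  rw [moll_eq]
  have hi : Integrable fun t => mollKer k t * C :=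
    ((mollKer_smooth k).continuous.integrable_of_hasCompactSupport (mollKer_compact k)).mul_const C
  rw [← Real.norm_eq_abs]
  refine (norm_integral_le_of_norm_le hi (.of_forall fun t => ?_)).trans_eq ?_
  · rw [Real.norm_eq_abs, abs_mul, abs_of_nonneg (mollKer_nonneg k t)]
    exact mul_le_mul_of_nonneg_left (hC _) (mollKer_nonneg k t)
  · rw [integral_mul_const, mollKer_integral, one_mul]

lemma moll_sq_le (k : ℕ) (hf : LocallyIntegrable f) (hf2 : LocallyIntegrable fun y => f y ^ 2)
    (x : Space) : moll k f x ^ 2 ≤ moll k (fun y => f y ^ 2) x := by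
  set m := moll k f x with hm
  have i1 := (moll_integrand k hf x).const_mul (2 * m)
  have i0 : Integrable fun t => m ^ 2 * mollKer k t :=
    ((mollKer_smooth k).continuous.integrable_of_hasCompactSupport (mollKer_compact k)).const_mul _
  have i2 := moll_integrand k hf2 x
  have h := integral_mono (g := fun t => m ^ 2 * mollKer k t + mollKer k t * f (x - t) ^ 2) i1
    (i0.add i2) fun t => by
      nlinarith [mollKer_nonneg k t,
        mul_nonneg (mollKer_nonneg k t) (sq_nonneg (m - f (x - t)))]
  rw [integral_const_mul, integral_add i0 i2, integral_const_mul, mollKer_integral, ← moll_eq,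
    ← hm] at h
  rw [moll_eq k (fun y => f y ^ 2)]
  linarith

lemma integrable_moll (k : ℕ) (hf : Integrable f) :
    Integrable (moll k f) ∧ ∫ x, moll k f x = ∫ x, f x := by
  have hk : Integrable (mollKer k) :=
    (mollKer_smooth k).continuous.integrable_of_hasCompactSupport (mollKer_compact k)
  refine ⟨hk.integrable_convolution _ hf, ?_⟩
  rw [moll, integral_convolution _ hk hf, mollKer_integral]
  simp

lemma integral_abs_moll_le (k : ℕ) (hf : Integrable f) : ∫ x, |moll k f x| ≤ ∫ x, |f x| :=
  (integral_mono (integrable_moll k hf).1.abs (integrable_moll k hf.abs).1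
    (abs_moll_le k f)).trans_eq (integrable_moll k hf.abs).2

lemma integral_sq_moll_le (k : ℕ) (hf : LocallyIntegrable f)
    (hf2 : Integrable fun y => f y ^ 2) :
    Integrable (fun x => moll k f x ^ 2) ∧ ∫ x, moll k f x ^ 2 ≤ ∫ x, f x ^ 2 := by
  have hi : Integrable fun x => moll k f x ^ 2 :=
    (integrable_moll k hf2).1.mono' ((contDiff_moll k hf).continuous.pow 2).aestronglyMeasurable
      (.of_forall fun x => by
        rw [Real.norm_eq_abs, abs_of_nonneg (sq_nonneg _)]
        exact moll_sq_le k hf hf2.locallyIntegrable x)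
  exact ⟨hi, (integral_mono hi (integrable_moll k hf2).1
    fun x => moll_sq_le k hf hf2.locallyIntegrable x).trans_eq (integrable_moll k hf2).2⟩

/-! ### Convergence -/

lemma moll_tendsto_continuous (hf : Continuous f) (x : Space) :
    Tendsto (fun k => moll k f x) atTop (𝓝 (f x)) :=
  ContDiffBump.convolution_tendsto_right_of_continuous tendsto_rOut hf x

lemma moll_tendsto_ae (hf : LocallyIntegrable f) :
    ∀ᵐ x, Tendsto (fun k => moll k f x) atTop (𝓝 (f x)) :=
  ContDiffBump.ae_convolution_tendsto_right_of_locallyIntegrable (K := 2) tendsto_rOut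
    (.of_forall fun k => le_of_eq (by simp only [mollBump]; field_simp)) hf

lemma moll_tendsto_pow_continuous (hf : Continuous f) (hc : HasCompactSupport f) {p : ℕ}
    (hp : p ≠ 0) : Tendsto (fun k => ∫ x, |moll k f x - f x| ^ p) atTop (𝓝 0) := by
  obtain ⟨C, hC⟩ := hc.exists_bound_of_continuous hf
  set K := cthickening 1 (tsupport f)
  have hK : IsCompact K := hc.isCompact.cthickening
  have h0 : ∀ k x, x ∉ K → |moll k f x - f x| ^ p = 0 := fun k x hx => by
    have h1 : f x = 0 :=
      image_eq_zero_of_notMem_tsupport fun h => hx (self_subset_cthickening _ h)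
    have h2 : moll k f x = 0 := by
      by_contra h
      refine hx (cthickening_mono ?_ _ (tsupport_moll_subset
        (fun y hy => image_eq_zero_of_notMem_tsupport hy) k (subset_tsupport _ h)))
      rw [div_le_one (by positivity)]
      linarith [(k.cast_nonneg : (0 : ℝ) ≤ k)]
    simp [h1, h2, hp]
  have := tendsto_integral_of_dominated_convergence
    (μ := (volume : Measure Space)) (F := fun k x => |moll k f x - f x| ^ p) (f := fun _ => 0)
    (fun x => K.indicator (fun _ => (C + C) ^ p) x)
    (fun k => (((contDiff_moll k hf.locallyIntegrable).continuous.sub hf).abs.pow p).aestronglyMeasurable)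
    (integrableOn_const (hs := hK.measure_lt_top.ne) |>.integrable_indicator hK.measurableSet)
    (fun k => .of_forall fun x => by
      by_cases hx : x ∈ K
      · rw [indicator_of_mem hx, Real.norm_eq_abs, abs_of_nonneg (by positivity)]
        refine pow_le_pow_left₀ (abs_nonneg _) ((abs_sub _ _).trans (add_le_add ?_ ?_)) p
        · exact abs_moll_le_of_bdd k (fun y => by simpa using hC y) x
        · simpa using hC x
      · rw [indicator_of_notMem hx, h0 k x hx, norm_zero])
    (.of_forall fun x => by
      simpa [hp] using (((moll_tendsto_continuous hf x).sub_const (f x)).abs.pow p))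
  simpa using this

lemma moll_tendsto_L1 (hf : Integrable f) :
    Tendsto (fun k => ∫ x, |moll k f x - f x|) atTop (𝓝 0) := by
  rw [Metric.tendsto_atTop]
  intro ε hε
  obtain ⟨g, hgc, hg, hg_cont, hgi⟩ :=
    hf.exists_hasCompactSupport_integral_sub_le (show (0 : ℝ) < ε / 4 by linarith)
  obtain ⟨N, hN⟩ := Metric.tendsto_atTop.1
    (moll_tendsto_pow_continuous hg_cont hgc one_ne_zero) (ε / 4) (by linarith)
  refine ⟨N, fun k hk => ?_⟩
  have h1 := hN k hk
  simp only [pow_one, Real.dist_eq, sub_zero] at h1 ⊢
  rw [abs_of_nonneg (integral_nonneg fun x => abs_nonneg _)] at h1 ⊢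
  have hd : Integrable fun x => f x - g x := hf.sub hgi
  have i1 : Integrable fun x => |moll k g x - g x| := ((integrable_moll k hgi).1.sub hgi).abs
  have e : ∀ x, |moll k f x - f x| ≤
      |moll k (fun y => f y - g y) x| + |moll k g x - g x| + |f x - g x| := fun x => by
    rw [moll_sub k hf.locallyIntegrable hgi.locallyIntegrable]
    calc |moll k f x - f x| = |(moll k f x - moll k g x) + (moll k g x - g x) + (g x - f x)| := by
          ring_nf
      _ ≤ _ := by
          refine (abs_add_three _ _ _).trans ?_
          rw [abs_sub_comm (g x)]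
  have i2 := (integrable_moll k hd).1.abs
  refine (integral_mono ((integrable_moll k hf).1.sub hf).abs ((i2.add i1).add hd.abs) e).trans_lt ?_
  rw [integral_add' (i2.add i1) hd.abs, integral_add' i2 i1]
  have h2 := integral_abs_moll_le k hd
  simp only [Real.norm_eq_abs] at hg
  linarith

lemma moll_tendsto_L2 (hf : LocallyIntegrable f) (hf2 : Integrable fun y => f y ^ 2) :
    Tendsto (fun k => ∫ x, (moll k f x - f x) ^ 2) atTop (𝓝 0) := by
  rw [Metric.tendsto_atTop]
  intro ε hε
  have hm : MemLp f (ENNReal.ofReal 2) := by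
    rw [ENNReal.ofReal_ofNat]
    exact (memLp_two_iff_integrable_sq hf.aestronglyMeasurable).2 hf2
  obtain ⟨g, hgc, hg, hg_cont, -⟩ :=
    hm.exists_hasCompactSupport_integral_rpow_sub_le two_pos (show (0 : ℝ) < ε / 12 by linarith)
  obtain ⟨N, hN⟩ := Metric.tendsto_atTop.1
    (moll_tendsto_pow_continuous hg_cont hgc two_ne_zero) (ε / 12) (by linarith)
  refine ⟨N, fun k hk => ?_⟩
  have h1 := hN k hk
  simp only [Real.dist_eq, sub_zero, sq_abs] at h1 ⊢
  rw [abs_of_nonneg (integral_nonneg fun x => sq_nonneg _)] at h1 ⊢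
  simp only [Real.norm_eq_abs, Real.rpow_two, sq_abs] at hg
  have hg2 : Integrable fun y => g y ^ 2 :=
    (hg_cont.pow 2).integrable_of_hasCompactSupport (by
      simpa only [sq] using hgc.mul_left (f := g))
  have hgl : LocallyIntegrable g := hg_cont.locallyIntegrable
  have hdl : LocallyIntegrable fun x => f x - g x := hf.sub hgl
  have hd2 : Integrable fun x => (f x - g x) ^ 2 := by
    refine ((hf2.const_mul 2).add (hg2.const_mul 2)).mono'
      ((hf.aestronglyMeasurable.sub hg_cont.aestronglyMeasurable).pow 2) (.of_forall fun x => ?_)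
    rw [Real.norm_eq_abs, abs_of_nonneg (sq_nonneg _)]
    simp only [Pi.add_apply]
    nlinarith [sq_nonneg (f x + g x)]
  obtain ⟨i2, h2⟩ := integral_sq_moll_le k hdl hd2
  have i1 : Integrable fun x => (moll k g x - g x) ^ 2 := by
    refine (((integral_sq_moll_le k hgl hg2).1.const_mul 2).add (hg2.const_mul 2)).mono'
      (((contDiff_moll k hgl).continuous.sub hg_cont).pow 2).aestronglyMeasurable
      (.of_forall fun x => ?_)
    rw [Real.norm_eq_abs, abs_of_nonneg (sq_nonneg _)]
    simp only [Pi.add_apply]
    nlinarith [sq_nonneg (moll k g x + g x)]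
  have e : ∀ x, (moll k f x - f x) ^ 2 ≤ 3 * moll k (fun y => f y - g y) x ^ 2 +
      3 * (moll k g x - g x) ^ 2 + 3 * (f x - g x) ^ 2 := fun x => by
    rw [moll_sub k hf hgl]
    nlinarith [sq_nonneg (moll k f x - moll k g x - (moll k g x - g x)),
      sq_nonneg (moll k g x - g x - (g x - f x)),
      sq_nonneg (moll k f x - moll k g x - (g x - f x))]
  refine lt_of_le_of_lt (integral_mono_of_nonneg (.of_forall fun x => sq_nonneg _)
    (((i2.const_mul 3).add (i1.const_mul 3)).add (hd2.const_mul 3)) (.of_forall e)) ?_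
  rw [integral_add' ((i2.const_mul 3).add (i1.const_mul 3)) (hd2.const_mul 3),
    integral_add' (i2.const_mul 3) (i1.const_mul 3), integral_const_mul, integral_const_mul,
    integral_const_mul]
  linarith

end Vale.Agent.P363
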