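import Vale.Agent.P363.Tool.Weak.Poisson
import Vale.Agent.P363.Tool.Weak.Moll

/-!
P363: local `L^p` classes, localisation to the whole space, and limits of weak gradients.
-/

noncomputable section

namespace Vale.Agent.P363

open MeasureTheory Set Filter Metric
open scoped BigOperators Topology ContDiff ENNReal

/-- `f` is in `L^p` on every compact subset of `U`. -/
def LocMemLp (p : ℝ≥0∞) (U : Set Space) (f : Space → ℝ) : Prop :=
  ∀ K, IsCompact K → K ⊆ U → MemLp f p (volume.restrict K)

variable {U V : Set Space} {f u φ : Space → ℝ} {F : Fin 3 → Space → ℝ} {p : ℝ≥0∞}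

namespace LocMemLp

lemma mono (h : LocMemLp p U f) (hVU : V ⊆ U) : LocMemLp p V f :=
  fun K hK hKV => h K hK (hKV.trans hVU)

lemma of_memLp (h : MemLp f p) : LocMemLp p U f := fun _ _ _ => h.restrict _

lemma mono_exponent {q : ℝ≥0∞} (h : LocMemLp q U f) (hpq : p ≤ q) : LocMemLp p U f :=
  fun K hK hKU => by
    have : IsFiniteMeasure (volume.restrict K) := isFiniteMeasure_restrict.2 hK.measure_lt_top.ne
    exact (h K hK hKU).mono_exponent hpq

lemma of_continuousOn (h : ContinuousOn f U) : LocMemLp p U f := fun K hK hKU => by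
  obtain ⟨C, hC⟩ := hK.exists_bound_of_continuousOn (h.mono hKU)
  have : IsFiniteMeasure (volume.restrict K) := isFiniteMeasure_restrict.2 hK.measure_lt_top.ne
  exact MemLp.of_bound ((h.mono hKU).aestronglyMeasurable hK.measurableSet) C
    ((ae_restrict_iff' hK.measurableSet).2 (.of_forall hC))

lemma add (h : LocMemLp p U f) (h' : LocMemLp p U u) : LocMemLp p U fun x => f x + u x :=
  fun K hK hKU => (h K hK hKU).add (h' K hK hKU)

lemma const_mul (h : LocMemLp p U f) (c : ℝ) : LocMemLp p U fun x => c * f x :=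
  fun K hK hKU => (h K hK hKU).const_mul c

lemma locallyIntegrableOn (h : LocMemLp p U f) (hp : 1 ≤ p) (hU : IsOpen U) :
    LocallyIntegrableOn f U :=
  (locallyIntegrableOn_iff hU.isLocallyClosed).2 fun K hKU hK => by
    have : IsFiniteMeasure (volume.restrict K) := isFiniteMeasure_restrict.2 hK.measure_lt_top.ne
    exact (h K hK hKU).integrable hp

lemma mul_continuousOn (h : LocMemLp p U f) (hφ : ContinuousOn φ U) :
    LocMemLp p U fun x => φ x * f x := fun K hK hKU => by
  obtain ⟨C, hC⟩ := hK.exists_bound_of_continuousOn (hφ.mono hKU)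
  refine (h K hK hKU).of_le_mul (c := C) (((hφ.mono hKU).aestronglyMeasurable hK.measurableSet).mul
    (h K hK hKU).1) ?_
  filter_upwards [ae_restrict_mem hK.measurableSet] with x hx
  rw [norm_mul]
  exact mul_le_mul_of_nonneg_right (hC x hx) (norm_nonneg _)

/-- Multiplication by a continuous function supported inside gives a global function. -/
lemma memLp_mul (h : LocMemLp p U f) (hφ : Continuous φ) (hc : HasCompactSupport φ)
    (hs : tsupport φ ⊆ U) : MemLp (fun x => f x * φ x) p := by
  obtain ⟨C, hC⟩ := hc.exists_bound_of_continuous hφ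
  have h1 : MemLp (fun x => f x * φ x) p (volume.restrict (tsupport φ)) := by
    refine (h _ hc hs).of_le_mul (c := C) ((h _ hc hs).1.mul hφ.aestronglyMeasurable)
      (.of_forall fun x => ?_)
    rw [norm_mul, mul_comm]
    exact mul_le_mul_of_nonneg_right (hC x) (norm_nonneg _)
  rw [← memLp_indicator_iff_restrict (isClosed_tsupport φ).measurableSet] at h1
  refine h1.ae_eq (.of_forall fun x => ?_)
  by_cases hx : x ∈ tsupport φ
  · simp [hx]
  · simp [hx, image_eq_zero_of_notMem_tsupport hx]

lemma locallyIntegrableOn_mul (h : LocMemLp 2 U f) (h' : LocMemLp 2 U u) (hU : IsOpen U) :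
    LocallyIntegrableOn (fun x => f x * u x) U :=
  (locallyIntegrableOn_iff hU.isLocallyClosed).2 fun K hKU hK =>
    (h K hK hKU).integrable_mul (h' K hK hKU)

end LocMemLp

lemma locallyIntegrableOn_of_abs_le {b : Space → ℝ} (hU : IsOpen U) (hb : LocallyIntegrableOn b U)
    (hm : AEStronglyMeasurable u (volume.restrict U))
    (h : ∀ᵐ x ∂volume.restrict U, |u x| ≤ b x) : LocallyIntegrableOn u U :=
  (locallyIntegrableOn_iff hU.isLocallyClosed).2 fun K hKU hK =>
    (hb.integrableOn_compact_subset hKU hK).mono' (hm.mono_measure (Measure.restrict_mono hKU le_rfl))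
      (ae_mono (Measure.restrict_mono hKU le_rfl) h)

lemma tendsto_integral_bump {w : ℕ → Space → ℝ} {b : Space → ℝ} (hU : IsOpen U)
    (hb : LocallyIntegrableOn b U) (hw : ∀ n, LocallyIntegrableOn (w n) U) {η : Space → ℝ}
    (hη : Continuous η) (hc : HasCompactSupport η) (hs : tsupport η ⊆ U)
    (hle : ∀ n, ∀ᵐ x ∂volume.restrict U, |w n x| ≤ b x)
    (hlim : ∀ᵐ x ∂volume.restrict U, Tendsto (fun n => w n x) atTop (𝓝 (u x))) :
    Tendsto (fun n => ∫ x, w n x * η x) atTop (𝓝 (∫ x, u x * η x)) := by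
  refine tendsto_integral_of_dominated_convergence (fun x => |b x * η x|)
    (fun n => (integrable_mul_of_tsupport (hw n) hη hc hs).aestronglyMeasurable)
    (integrable_mul_of_tsupport hb hη hc hs).abs (fun n => ?_) ?_
  · filter_upwards [(ae_restrict_iff' hU.measurableSet).1 (hle n)] with x hx
    by_cases hxU : x ∈ U
    · rw [Real.norm_eq_abs, abs_mul, abs_mul]
      exact mul_le_mul_of_nonneg_right ((hx hxU).trans (le_abs_self _)) (abs_nonneg _)
    · simp [image_eq_zero_of_notMem_tsupport fun h => hxU (hs h)]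
  · filter_upwards [(ae_restrict_iff' hU.measurableSet).1 hlim] with x hx
    by_cases hxU : x ∈ U
    · exact (hx hxU).mul_const _
    · simp [image_eq_zero_of_notMem_tsupport fun h => hxU (hs h)]

namespace HasWeakGrad

/-- Weak limits of weak gradients. -/
lemma of_tendsto_integral {w : ℕ → Space → ℝ} {G : ℕ → Fin 3 → Space → ℝ}
    (h : ∀ n, HasWeakGrad U (w n) (G n)) (hu : LocallyIntegrableOn u U)
    (hF : ∀ a, LocallyIntegrableOn (F a) U)
    (hlim : ∀ η, IsBump U η → Tendsto (fun n => ∫ x, w n x * η x) atTop (𝓝 (∫ x, u x * η x)))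
    (hlim' : ∀ η a, IsBump U η →
      Tendsto (fun n => ∫ x, G n a x * η x) atTop (𝓝 (∫ x, F a x * η x))) :
    HasWeakGrad U u F := by
  refine ⟨hu, hF, fun η hη a => ?_⟩
  have h1 := hlim _ (hη.deriv a)
  simp only [(h _).2.2 η hη a] at h1
  exact tendsto_nhds_unique h1 (hlim' η a hη).neg

/-- Dominated limits of weak gradients. -/
lemma of_tendsto_ae {w : ℕ → Space → ℝ} {G : ℕ → Fin 3 → Space → ℝ} {b : Space → ℝ}
    {B : Fin 3 → Space → ℝ} (hU : IsOpen U) (h : ∀ n, HasWeakGrad U (w n) (G n))
    (hb : LocallyIntegrableOn b U) (hB : ∀ a, LocallyIntegrableOn (B a) U)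
    (hle : ∀ n, ∀ᵐ x ∂volume.restrict U, |w n x| ≤ b x)
    (hlim : ∀ᵐ x ∂volume.restrict U, Tendsto (fun n => w n x) atTop (𝓝 (u x)))
    (hle' : ∀ n a, ∀ᵐ x ∂volume.restrict U, |G n a x| ≤ B a x)
    (hlim' : ∀ a, ∀ᵐ x ∂volume.restrict U, Tendsto (fun n => G n a x) atTop (𝓝 (F a x))) :
    HasWeakGrad U u F := by
  refine of_tendsto_integral h ?_ (fun a => ?_)
    (fun η hη => tendsto_integral_bump hU hb (fun n => (h n).1) hη.continuous hη.compact hη.supp
      hle hlim)
    (fun η a hη => tendsto_integral_bump hU (hB a) (fun n => (h n).2.1 a) hη.continuous hη.compact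
      hη.supp (fun n => hle' n a) (hlim' a))
  · refine locallyIntegrableOn_of_abs_le hU hb
      (aestronglyMeasurable_of_tendsto_ae _ (fun n => (h n).1.aestronglyMeasurable) hlim) ?_
    filter_upwards [ae_all_iff.2 hle, hlim] with x h1 h2
    exact le_of_tendsto' h2.abs h1
  · refine locallyIntegrableOn_of_abs_le hU (hB a)
      (aestronglyMeasurable_of_tendsto_ae _ (fun n => ((h n).2.1 a).aestronglyMeasurable)
        (hlim' a)) ?_
    filter_upwards [ae_all_iff.2 fun n => hle' n a, hlim' a] with x h1 h2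
    exact le_of_tendsto' h2.abs h1

/-- A cut-off makes a weakly differentiable function global. -/
lemma localize (hU : IsOpen U) (h : HasWeakGrad U f F) {χ : Space → ℝ} (hχ : IsBump U χ) :
    HasWeakGrad univ (fun x => χ x * f x) (fun a x => χ x * F a x + deriv3 a χ x * f x) ∧
      (Integrable fun x => χ x * f x) ∧
      ∀ a, Integrable fun x => χ x * F a x + deriv3 a χ x * f x := by
  have h1 := h.mul_smooth hU hχ.smooth.contDiffOn
  have h2 : HasWeakGrad (tsupport χ)ᶜ (fun x => χ x * f x)
      (fun a x => χ x * F a x + deriv3 a χ x * f x) := by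
    have ho := (isClosed_tsupport χ).isOpen_compl
    refine (HasWeakGrad.zero _).congr_ae ho ?_ fun a => ?_
    · exact (ae_restrict_iff' ho.measurableSet).2 (.of_forall fun x hx => by
        simp [image_eq_zero_of_notMem_tsupport hx])
    · exact (ae_restrict_iff' ho.measurableSet).2 (.of_forall fun x hx => by
        simp [image_eq_zero_of_notMem_tsupport hx, deriv3_eq_zero_of_notMem a hx])
  refine ⟨?_, ?_, fun a => ?_⟩
  · have := h1.union hU (isClosed_tsupport χ).isOpen_compl h2
    rwa [show U ∪ (tsupport χ)ᶜ = univ from eq_univ_of_forall fun x =>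
      (em (x ∈ tsupport χ)).imp (fun h => hχ.supp h) id] at this
  · simpa [mul_comm] using hχ.integrable_mul h.1
  · refine ((hχ.integrable_mul (h.2.1 a)).add ((hχ.deriv a).integrable_mul h.1)).congr
      (.of_forall fun x => ?_)
    simp only [Pi.add_apply]; ring

lemma localize_sq (hf : LocMemLp 2 U f) (hF : ∀ a, LocMemLp 2 U (F a)) {χ : Space → ℝ}
    (hχ : IsBump U χ) : MemLp (fun x => χ x * f x) 2 ∧
      ∀ a, MemLp (fun x => χ x * F a x + deriv3 a χ x * f x) 2 := by
  refine ⟨?_, fun a => MemLp.add ?_ ?_⟩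
  · simpa [mul_comm] using hf.memLp_mul hχ.continuous hχ.compact hχ.supp
  · simpa [mul_comm] using (hF a).memLp_mul hχ.continuous hχ.compact hχ.supp
  · simpa [mul_comm] using hf.memLp_mul (hχ.deriv a).continuous (hχ.deriv a).compact (hχ.deriv a).supp

end HasWeakGrad

end Vale.Agent.P363
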