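import Vale.Agent.P363.Tool.Test

/-!
P363: calculus of weak gradients and weak Poisson equations: test functions, cut-offs, linearity,
uniqueness, smooth functions, smooth multipliers and gluing.
-/

noncomputable section

namespace Vale.Agent.P363

open MeasureTheory Set Filter Metric
open scoped BigOperators Topology ContDiff Manifold

variable {U V : Set Space} {η θ : Space → ℝ} {f g : Space → ℝ}

/-! ### Derivatives -/

lemma norm_unit3 (a : Fin 3) : ‖unit3 a‖ = 1 := by simp [unit3]

lemma deriv3_mul {x : Space} (hf : DifferentiableAt ℝ f x) (hg : DifferentiableAt ℝ g x)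
    (a : Fin 3) :
    deriv3 a (fun y => f y * g y) x = deriv3 a f x * g x + f x * deriv3 a g x := by
  simp [deriv3, fderiv_fun_mul hf hg]; ring

lemma deriv3_add {x : Space} (hf : DifferentiableAt ℝ f x) (hg : DifferentiableAt ℝ g x)
    (a : Fin 3) : deriv3 a (fun y => f y + g y) x = deriv3 a f x + deriv3 a g x := by
  simp [deriv3, fderiv_fun_add hf hg]

lemma deriv3_const_mul {x : Space} (hf : DifferentiableAt ℝ f x) (c : ℝ) (a : Fin 3) :
    deriv3 a (fun y => c * f y) x = c * deriv3 a f x := by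
  simp [deriv3, fderiv_const_mul hf]

@[simp] lemma deriv3_const (c : ℝ) (a : Fin 3) (x : Space) : deriv3 a (fun _ => c) x = 0 := by
  simp [deriv3]

lemma deriv3_eq_zero_of_notMem (a : Fin 3) {x : Space} (h : x ∉ tsupport η) :
    deriv3 a η x = 0 := by
  simp [deriv3, fderiv_of_notMem_tsupport ℝ h]

lemma continuous_deriv3 (hη : ContDiff ℝ 1 η) (a : Fin 3) : Continuous (deriv3 a η) := by
  unfold deriv3
  exact (hη.continuous_fderiv one_ne_zero).clm_apply continuous_const

lemma continuousOn_deriv3 (hU : IsOpen U) (hη : ContDiffOn ℝ 1 η U) (a : Fin 3) :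
    ContinuousOn (deriv3 a η) U := by
  unfold deriv3
  exact (hη.continuousOn_fderiv_of_isOpen hU le_rfl).clm_apply continuousOn_const

lemma abs_deriv3_le (a : Fin 3) (x : Space) : |deriv3 a η x| ≤ ‖fderiv ℝ η x‖ := by
  have := (fderiv ℝ η x).le_opNorm (unit3 a)
  rwa [norm_unit3, mul_one, Real.norm_eq_abs] at this

/-- The integral of a derivative of a compactly supported function vanishes. -/
lemma integral_deriv3 {u : Space → ℝ} (hu : ContDiff ℝ 1 u) (hc : HasCompactSupport u)
    (a : Fin 3) : ∫ x, deriv3 a u x = 0 := by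
  have i1 : Integrable (deriv3 a u) :=
    (continuous_deriv3 hu a).integrable_of_hasCompactSupport (hasCompactSupport_deriv3 a hc)
  have i2 : Integrable u := hu.continuous.integrable_of_hasCompactSupport hc
  have h := integral_mul_fderiv_eq_neg_fderiv_mul_of_integrable (μ := (volume : Measure Space))
    (f := fun _ : Space => (1 : ℝ)) (g := u) (v := unit3 a) (by simp)
    (by simp only [one_mul]; exact i1) (by simp only [one_mul]; exact i2)
    (fun x _ => differentiableAt_const 1) (fun x _ => hu.differentiable one_ne_zero x)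
  simpa [deriv3] using h

lemma locallyIntegrableOn_of_nhds {u : Space → ℝ}
    (h : ∀ x ∈ U, ∃ W, IsOpen W ∧ x ∈ W ∧ LocallyIntegrableOn u W) :
    LocallyIntegrableOn u U := fun x hx => by
  obtain ⟨W, hW, hxW, hl⟩ := h x hx
  have h' := hl x hxW
  rw [nhdsWithin_eq_nhds.2 (hW.mem_nhds hxW)] at h'
  exact h'.filter_mono nhdsWithin_le_nhds

lemma locallyIntegrableOn_union {u : Space → ℝ} (hU : IsOpen U) (hV : IsOpen V)
    (h : LocallyIntegrableOn u U) (h' : LocallyIntegrableOn u V) :
    LocallyIntegrableOn u (U ∪ V) :=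
  locallyIntegrableOn_of_nhds fun x hx => hx.elim (fun hx => ⟨U, hU, hx, h⟩)
    fun hx => ⟨V, hV, hx, h'⟩

/-! ### Test functions -/

namespace IsBump

lemma continuous (h : IsBump U η) : Continuous η := h.smooth.continuous

lemma differentiable (h : IsBump U η) : Differentiable ℝ η := h.smooth.differentiable (by simp)

lemma univ (h : IsBump U η) : IsBump Set.univ η := h.mono (subset_univ _)

lemma eq_zero (h : IsBump U η) {x : Space} (hx : x ∉ U) : η x = 0 :=
  image_eq_zero_of_notMem_tsupport fun h' => hx (h.supp h')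

lemma deriv (h : IsBump U η) (a : Fin 3) : IsBump U (deriv3 a η) := by
  refine ⟨contDiff_deriv3 a h.smooth le_rfl, hasCompactSupport_deriv3 a h.compact,
    (closure_minimal ?_ (isClosed_tsupport _)).trans h.supp⟩
  intro x hx
  by_contra h'
  exact hx (deriv3_eq_zero_of_notMem a h')

lemma lap (h : IsBump U η) : IsBump U (Vale.Agent.P363.lap η) := by
  refine ⟨?_, ?_, (closure_minimal ?_ (isClosed_tsupport _)).trans h.supp⟩
  · exact ContDiff.sum fun a _ => ((h.deriv a).deriv a).smooth
  · refine HasCompactSupport.intro h.compact fun x hx => ?_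
    refine Finset.sum_eq_zero fun a _ => deriv3_eq_zero_of_notMem a ?_
    exact fun h' => hx (closure_minimal (fun y hy => by
      by_contra h''
      exact hy (deriv3_eq_zero_of_notMem a h'')) (isClosed_tsupport _) h')
  · intro x hx
    by_contra h'
    refine hx (Finset.sum_eq_zero fun a _ => deriv3_eq_zero_of_notMem a ?_)
    exact fun h'' => h' (closure_minimal (fun y hy => by
      by_contra h3
      exact hy (deriv3_eq_zero_of_notMem a h3)) (isClosed_tsupport _) h'')

lemma contDiff_mul {n : WithTop ℕ∞} (h : IsBump U η) (hn : n ≤ ∞) (hU : IsOpen U)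
    (hθ : ContDiffOn ℝ n θ U) : ContDiff ℝ n fun x => θ x * η x := by
  refine contDiff_iff_contDiffAt.2 fun x => ?_
  by_cases hx : x ∈ U
  · exact (hθ.contDiffAt (hU.mem_nhds hx)).mul ((h.smooth.of_le hn).contDiffAt)
  · have : (fun y => θ y * η y) =ᶠ[𝓝 x] fun _ => 0 := by
      filter_upwards [(isClosed_tsupport η).isOpen_compl.mem_nhds fun h' => hx (h.supp h')]
        with y hy
      rw [image_eq_zero_of_notMem_tsupport hy, mul_zero]
    exact contDiffAt_const.congr_of_eventuallyEq this

lemma mul_left (h : IsBump U η) (hU : IsOpen U) (hθ : ContDiffOn ℝ ∞ θ U) :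
    IsBump U fun x => θ x * η x :=
  ⟨h.contDiff_mul le_rfl hU hθ, h.compact.mul_left, (tsupport_mul_subset_right).trans h.supp⟩

lemma const_mul (h : IsBump U η) (c : ℝ) : IsBump U fun x => c * η x :=
  ⟨contDiff_const.mul h.smooth, h.compact.mul_left, (tsupport_mul_subset_right).trans h.supp⟩

lemma add {ζ : Space → ℝ} (h : IsBump U η) (h' : IsBump U ζ) : IsBump U fun x => η x + ζ x :=
  ⟨h.smooth.add h'.smooth, h.compact.add h'.compact,
    (tsupport_add η ζ).trans (union_subset h.supp h'.supp)⟩

/-- A locally integrable function times a continuous function supported inside is integrable. -/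
lemma _root_.Vale.Agent.P363.integrable_mul_of_tsupport {φ : Space → ℝ}
    (hf : LocallyIntegrableOn f U) (hφ : Continuous φ) (hc : HasCompactSupport φ)
    (hs : tsupport φ ⊆ U) : Integrable fun x => f x * φ x := by
  have h1 : IntegrableOn (fun x => f x * φ x) (tsupport φ) :=
    (hf.integrableOn_compact_subset hs hc).mul_continuousOn hφ.continuousOn hc
  refine h1.integrable_of_forall_notMem_eq_zero fun x hx => ?_
  rw [image_eq_zero_of_notMem_tsupport hx, mul_zero]

lemma integrable_mul (h : IsBump U η) (hf : LocallyIntegrableOn f U) :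
    Integrable fun x => f x * η x :=
  integrable_mul_of_tsupport hf h.continuous h.compact h.supp

lemma integrable_mul_deriv (h : IsBump U η) (hf : LocallyIntegrableOn f U) (a : Fin 3) :
    Integrable fun x => f x * deriv3 a η x :=
  (h.deriv a).integrable_mul hf

lemma integrable_mul_lap (h : IsBump U η) (hf : LocallyIntegrableOn f U) :
    Integrable fun x => f x * Vale.Agent.P363.lap η x :=
  h.lap.integrable_mul hf

end IsBump

/-- A test function in `[0, 1]` equal to one near a compact set. -/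
lemma exists_cutoff {K : Set Space} (hU : IsOpen U) (hK : IsCompact K) (hKU : K ⊆ U) :
    ∃ χ : Space → ℝ, IsBump U χ ∧ (∀ x, χ x ∈ Icc (0 : ℝ) 1) ∧
      ∃ W, IsOpen W ∧ K ⊆ W ∧ ∀ x ∈ W, χ x = 1 := by
  obtain ⟨L, hL, hKL, hLU⟩ := exists_compact_between hK hU hKU
  obtain ⟨χ, h0, h1, h01⟩ := exists_contMDiffMap_zero_one_nhds_of_isClosed (n := ⊤) 𝓘(ℝ, Space)
    isOpen_interior.isClosed_compl hK.isClosed
    (disjoint_left.2 fun x hx hxK => hx (hKL hxK))
  have hs : tsupport χ ⊆ L := by
    refine closure_minimal (fun x hx => ?_) hL.isClosed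
    by_contra h
    exact hx (h0.self_of_nhdsSet x fun h' => h (interior_subset h'))
  obtain ⟨W, hW, hKW, hW1⟩ := eventually_nhdsSet_iff_exists.1 h1
  exact ⟨χ, ⟨χ.contMDiff.contDiff, hL.of_isClosed_subset (isClosed_tsupport _) hs,
    hs.trans hLU⟩, h01, W, hW, hKW, hW1⟩

lemma deriv3_eq_zero_of_eqOn_one {χ : Space → ℝ} {W : Set Space} (hW : IsOpen W)
    (h : ∀ x ∈ W, χ x = 1) (a : Fin 3) {x : Space} (hx : x ∈ W) : deriv3 a χ x = 0 := by
  have : χ =ᶠ[𝓝 x] fun _ => 1 := Filter.eventually_of_mem (hW.mem_nhds hx) h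
  simp [deriv3, this.fderiv_eq]

/-! ### Weak gradients -/

variable {f' : Space → ℝ} {F F' : Fin 3 → Space → ℝ}

lemma integral_congr_of_ae_mem {u u' η : Space → ℝ} (hU : MeasurableSet U)
    (h : u =ᵐ[volume.restrict U] u') (hη : ∀ x ∉ U, η x = 0) :
    ∫ x, u x * η x = ∫ x, u' x * η x := by
  refine integral_congr_ae ?_
  filter_upwards [(ae_restrict_iff' hU).1 h] with x hx
  by_cases hxU : x ∈ U
  · rw [hx hxU]
  · rw [hη x hxU, mul_zero, mul_zero]

namespace HasWeakGrad

lemma mono (h : HasWeakGrad U f F) (hVU : V ⊆ U) : HasWeakGrad V f F :=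
  ⟨h.1.mono_set hVU, fun a => (h.2.1 a).mono_set hVU, fun η hη => h.2.2 η (hη.mono hVU)⟩

lemma congr_ae (hU : IsOpen U) (h : HasWeakGrad U f F) (hf : f =ᵐ[volume.restrict U] f')
    (hF : ∀ a, F a =ᵐ[volume.restrict U] F' a) : HasWeakGrad U f' F' := by
  refine ⟨h.1.congr hf, fun a => (h.2.1 a).congr (hF a), fun η hη a => ?_⟩
  rw [← integral_congr_of_ae_mem hU.measurableSet hf fun x hx => (hη.deriv a).eq_zero hx,
    ← integral_congr_of_ae_mem hU.measurableSet (hF a) fun x hx => hη.eq_zero hx]
  exact h.2.2 η hη a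

lemma add (h : HasWeakGrad U f F) (h' : HasWeakGrad U f' F') :
    HasWeakGrad U (fun x => f x + f' x) fun a x => F a x + F' a x := by
  refine ⟨h.1.add h'.1, fun a => (h.2.1 a).add (h'.2.1 a), fun η hη a => ?_⟩
  simp only [add_mul]
  rw [integral_add (hη.integrable_mul_deriv h.1 a) (hη.integrable_mul_deriv h'.1 a),
    integral_add (hη.integrable_mul (h.2.1 a)) (hη.integrable_mul (h'.2.1 a)),
    h.2.2 η hη a, h'.2.2 η hη a]
  ring

lemma const_mul (h : HasWeakGrad U f F) (c : ℝ) :
    HasWeakGrad U (fun x => c * f x) fun a x => c * F a x := by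
  refine ⟨h.1.smul c, fun a => (h.2.1 a).smul c, fun η hη a => ?_⟩
  simp only [mul_assoc, integral_const_mul, h.2.2 η hη a]
  ring

lemma neg (h : HasWeakGrad U f F) : HasWeakGrad U (fun x => -f x) fun a x => -F a x := by
  simpa using h.const_mul (-1)

lemma sub (h : HasWeakGrad U f F) (h' : HasWeakGrad U f' F') :
    HasWeakGrad U (fun x => f x - f' x) fun a x => F a x - F' a x := by
  simpa only [← sub_eq_add_neg] using h.add h'.neg

lemma zero (U : Set Space) : HasWeakGrad U (fun _ => 0) fun _ _ => 0 :=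
  ⟨locallyIntegrableOn_zero, fun _ => locallyIntegrableOn_zero, fun η _ a => by simp⟩

lemma sum {ι : Type*} (s : Finset ι) {u : ι → Space → ℝ} {G : ι → Fin 3 → Space → ℝ}
    (h : ∀ i ∈ s, HasWeakGrad U (u i) (G i)) :
    HasWeakGrad U (fun x => ∑ i ∈ s, u i x) fun a x => ∑ i ∈ s, G i a x := by
  classical
  induction s using Finset.induction with
  | empty => simpa using zero U
  | @insert j s hj ih =>
    simp only [Finset.sum_insert hj]
    exact (h j (Finset.mem_insert_self j s)).add
      (ih fun i hi => h i (Finset.mem_insert_of_mem hi))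

/-- Weak gradients are unique almost everywhere. -/
lemma unique (hU : IsOpen U) (h : HasWeakGrad U f F) (h' : HasWeakGrad U f F') (a : Fin 3) :
    F a =ᵐ[volume.restrict U] F' a := by
  refine (ae_restrict_iff' hU.measurableSet).2 ?_
  have := hU.ae_eq_zero_of_integral_contDiff_smul_eq_zero ((h.2.1 a).sub (h'.2.1 a)) ?_
  · filter_upwards [this] with x hx hxU
    exact sub_eq_zero.1 (hx hxU)
  intro φ hφ hc hs
  have hη : IsBump U φ := ⟨hφ, hc, hs⟩
  simp only [smul_eq_mul, Pi.sub_apply, mul_comm (φ _), sub_mul]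
  rw [integral_sub (hη.integrable_mul (h.2.1 a)) (hη.integrable_mul (h'.2.1 a))]
  linarith [h.2.2 φ hη a, h'.2.2 φ hη a]

/-- The gradient of a `C¹` function. -/
lemma of_contDiffOn (hU : IsOpen U) (hf : ContDiffOn ℝ 1 f U) :
    HasWeakGrad U f fun a => deriv3 a f := by
  refine ⟨hf.continuousOn.locallyIntegrableOn hU.measurableSet,
    fun a => (continuousOn_deriv3 hU hf a).locallyIntegrableOn hU.measurableSet, fun η hη a => ?_⟩
  have i1 := hη.integrable_mul_deriv (hf.continuousOn.locallyIntegrableOn hU.measurableSet) a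
  have i2 := hη.integrable_mul ((continuousOn_deriv3 hU hf a).locallyIntegrableOn hU.measurableSet)
  have h := integral_deriv3 (hη.contDiff_mul (by simp) hU hf) hη.compact.mul_left a
  have e : ∀ x, deriv3 a (fun y => f y * η y) x = deriv3 a f x * η x + f x * deriv3 a η x := by
    intro x
    by_cases hx : x ∈ U
    · exact deriv3_mul ((hf.contDiffAt (hU.mem_nhds hx)).differentiableAt one_ne_zero)
        (hη.differentiable x) a
    · rw [deriv3_eq_zero_of_notMem a fun h' => hx (hη.supp (tsupport_mul_subset_right h')),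
        hη.eq_zero hx, (hη.deriv a).eq_zero hx]
      ring
  simp only [e] at h
  rw [integral_add i2 i1] at h
  linarith

lemma const (hU : IsOpen U) (c : ℝ) : HasWeakGrad U (fun _ => c) fun _ _ => 0 := by
  refine (of_contDiffOn hU (f := fun _ => c) contDiffOn_const).congr_ae hU (ae_eq_refl _)
    fun a => .of_forall fun x => ?_
  simp

/-- Product with a smooth function. -/
lemma mul_smooth (hU : IsOpen U) (h : HasWeakGrad U f F) (hθ : ContDiffOn ℝ ∞ θ U) :
    HasWeakGrad U (fun x => θ x * f x) fun a x => θ x * F a x + deriv3 a θ x * f x := by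
  have hθc := hθ.continuousOn
  have hdc : ∀ a, ContinuousOn (deriv3 a θ) U := fun a =>
    continuousOn_deriv3 hU (hθ.of_le (by simp)) a
  have L : ∀ {u φ : Space → ℝ}, LocallyIntegrableOn u U → ContinuousOn φ U →
      LocallyIntegrableOn (fun x => φ x * u x) U := fun {u φ} hu hφ =>
    hu.continuousOn_mul hφ hU.isLocallyClosed
  have l2 : ∀ a, LocallyIntegrableOn (fun x => θ x * F a x) U := fun a => L (h.2.1 a) hθc
  have l3 : ∀ a, LocallyIntegrableOn (fun x => deriv3 a θ x * f x) U := fun a => L h.1 (hdc a)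
  refine ⟨L h.1 hθc, fun a => (l2 a).add (l3 a), fun η hη a => ?_⟩
  have hη' := hη.mul_left hU hθ
  have key := h.2.2 _ hη' a
  have e : ∀ x, f x * deriv3 a (fun y => θ y * η y) x =
      deriv3 a θ x * f x * η x + θ x * f x * deriv3 a η x := by
    intro x
    by_cases hx : x ∈ U
    · rw [deriv3_mul ((hθ.contDiffAt (hU.mem_nhds hx)).differentiableAt (by simp))
        (hη.differentiable x) a]
      ring
    · rw [(hη'.deriv a).eq_zero hx, hη.eq_zero hx, (hη.deriv a).eq_zero hx]
      ring
  simp only [e] at key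
  rw [integral_add (hη.integrable_mul (l3 a)) (hη.integrable_mul_deriv (L h.1 hθc) a)] at key
  simp only [add_mul]
  rw [integral_add (hη.integrable_mul (l2 a)) (hη.integrable_mul (l3 a))]
  have : ∫ x, F a x * (θ x * η x) = ∫ x, θ x * F a x * η x :=
    integral_congr_ae (.of_forall fun x => by ring)
  linarith

/-- Gluing two open sets. -/
lemma union (hU : IsOpen U) (hV : IsOpen V) (h : HasWeakGrad U f F) (h' : HasWeakGrad V f F) :
    HasWeakGrad (U ∪ V) f F := by
  refine ⟨locallyIntegrableOn_union hU hV h.1 h'.1,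
    fun a => locallyIntegrableOn_union hU hV (h.2.1 a) (h'.2.1 a), fun η hη a => ?_⟩
  obtain ⟨χ, hχ, -, W, hW, hKW, hW1⟩ := exists_cutoff hU (hη.compact.diff hV) (fun x hx =>
    (hη.supp hx.1).resolve_right hx.2)
  have h1 : IsBump U fun x => η x * χ x :=
    ⟨hη.smooth.mul hχ.smooth, hχ.compact.mul_left, (tsupport_mul_subset_right).trans hχ.supp⟩
  have h2 : IsBump V fun x => η x * (1 - χ x) := by
    refine ⟨hη.smooth.mul (contDiff_const.sub hχ.smooth), hη.compact.mul_right, ?_⟩
    intro x hx
    by_contra hxV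
    have hxW : x ∈ W := hKW ⟨tsupport_mul_subset_left hx, hxV⟩
    refine notMem_tsupport_iff_eventuallyEq.2 ?_ hx
    filter_upwards [hW.mem_nhds hxW] with y hy
    simp [hW1 y hy]
  have li := locallyIntegrableOn_union hU hV h.1 h'.1
  have li' := locallyIntegrableOn_union hU hV (h.2.1 a) (h'.2.1 a)
  have e : ∀ x, deriv3 a η x =
      deriv3 a (fun y => η y * χ y) x + deriv3 a (fun y => η y * (1 - χ y)) x := fun x => by
    rw [← deriv3_add (h1.differentiable x) (h2.differentiable x) a]
    congr 1; funext y; ring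
  calc ∫ x, f x * deriv3 a η x
      = (∫ x, f x * deriv3 a (fun y => η y * χ y) x) +
          ∫ x, f x * deriv3 a (fun y => η y * (1 - χ y)) x := by
        simp only [e, mul_add]
        exact integral_add (h1.integrable_mul_deriv h.1 a) (h2.integrable_mul_deriv h'.1 a)
    _ = -((∫ x, F a x * (η x * χ x)) + ∫ x, F a x * (η x * (1 - χ x))) := by
        rw [h.2.2 _ h1 a, h'.2.2 _ h2 a]; ring
    _ = -∫ x, F a x * η x := by
        rw [← integral_add (h1.integrable_mul (h.2.1 a)) (h2.integrable_mul (h'.2.1 a))]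
        congr 1; congr 1; funext x; ring

/-- From local to global. -/
lemma of_local (h : ∀ x ∈ U, ∃ V, IsOpen V ∧ x ∈ V ∧ HasWeakGrad V f F) :
    HasWeakGrad U f F := by
  refine ⟨locallyIntegrableOn_of_nhds fun x hx => ?_,
    fun a => locallyIntegrableOn_of_nhds fun x hx => ?_, fun η hη a => ?_⟩
  · obtain ⟨V, hV, hxV, hw⟩ := h x hx
    exact ⟨V, hV, hxV, hw.1⟩
  · obtain ⟨V, hV, hxV, hw⟩ := h x hx
    exact ⟨V, hV, hxV, hw.2.1 a⟩
  · have key : ∃ V, IsOpen V ∧ tsupport η ⊆ V ∧ HasWeakGrad V f F := by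
      refine hη.compact.induction_on (p := fun s => ∃ V, IsOpen V ∧ s ⊆ V ∧ HasWeakGrad V f F)
        ⟨∅, isOpen_empty, Subset.rfl, ⟨fun x hx => hx.elim, fun a x hx => hx.elim,
          fun φ hφ b => by
            have h0 : ∀ y, φ y = 0 := fun y => hφ.eq_zero (notMem_empty y)
            have h1 : ∀ y, deriv3 b φ y = 0 := fun y => (hφ.deriv b).eq_zero (notMem_empty y)
            simp [h0, h1]⟩⟩
        (fun s t hst ⟨V, hV, hs, hw⟩ => ⟨V, hV, hst.trans hs, hw⟩)
        (fun s t ⟨V, hV, hs, hw⟩ ⟨V', hV', hs', hw'⟩ =>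
          ⟨V ∪ V', hV.union hV', union_subset_union hs hs', hw.union hV hV' hw'⟩)
        fun x hx => ?_
      obtain ⟨V, hV, hxV, hw⟩ := h x (hη.supp hx)
      exact ⟨V, mem_nhdsWithin_of_mem_nhds (hV.mem_nhds hxV), V, hV, Subset.rfl, hw⟩
    obtain ⟨V, -, hs, hw⟩ := key
    exact hw.2.2 η ⟨hη.smooth, hη.compact, hs⟩ a

end HasWeakGrad

end Vale.Agent.P363
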