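import Vale.Agent.P363.Tool.Weak.Chain

/-!
P363: weak gradients of Lipschitz functions and product rules.
-/

noncomputable section

namespace Vale.Agent.P363

open MeasureTheory Set Filter Metric
open scoped BigOperators Topology ContDiff ENNReal NNReal

variable {U : Set Space} {f u : Space → ℝ} {F G : Fin 3 → Space → ℝ}

/-- The mean square pairing is continuous. -/
lemma tendsto_integral_mul_of_L2 {v w₀ : Space → ℝ} {w : ℕ → Space → ℝ} (hv : MemLp v 2)
    (hw : ∀ k, MemLp (w k) 2) (hw₀ : MemLp w₀ 2)
    (hL : Tendsto (fun k => ∫ x, (w k x - w₀ x) ^ 2) atTop (𝓝 0)) :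
    Tendsto (fun k => ∫ x, v x * w k x) atTop (𝓝 (∫ x, v x * w₀ x)) := by
  rw [Metric.tendsto_atTop]
  intro ε hε
  have iv : Integrable fun x => v x ^ 2 := hv.integrable_sq
  set A := ∫ x, v x ^ 2
  have hA : 0 ≤ A := integral_nonneg fun x => sq_nonneg _
  set l := ε / (A + 1) with hl_def
  have hl : 0 < l := by positivity
  obtain ⟨N, hN⟩ := Metric.tendsto_atTop.1 hL (ε * l / 2) (by positivity)
  refine ⟨N, fun k hk => ?_⟩
  have h1 := hN k hk
  rw [Real.dist_eq, sub_zero, abs_of_nonneg (integral_nonneg fun x => sq_nonneg _)] at h1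
  have id : Integrable fun x => (w k x - w₀ x) ^ 2 := ((hw k).sub hw₀).integrable_sq
  rw [Real.dist_eq,
    ← integral_sub (f := fun x => v x * w k x) (g := fun x => v x * w₀ x)
      (hv.integrable_mul (hw k)) (hv.integrable_mul hw₀), ← Real.norm_eq_abs]
  refine lt_of_le_of_lt (norm_integral_le_of_norm_le
    ((iv.const_mul (l / 2)).add (id.const_mul (1 / (2 * l)))) (.of_forall fun x => ?_)) ?_
  · rw [Real.norm_eq_abs, Pi.add_apply, ← mul_sub, abs_mul]
    have : 0 ≤ (l * |v x| - |w k x - w₀ x|) ^ 2 / (2 * l) := by positivity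
    rw [← sq_abs (v x), ← sq_abs (w k x - w₀ x)]
    field_simp at this ⊢
    nlinarith
  · rw [integral_add' (iv.const_mul _) (id.const_mul _), integral_const_mul, integral_const_mul]
    have h2 : l / 2 * A ≤ ε / 2 := by
      rw [hl_def]
      have : A / (A + 1) ≤ 1 := (div_le_one (by linarith)).2 (by linarith)
      calc ε / (A + 1) / 2 * A = ε / 2 * (A / (A + 1)) := by ring
        _ ≤ ε / 2 * 1 := mul_le_mul_of_nonneg_left this (by linarith)
        _ = _ := mul_one _
    have h3 : 1 / (2 * l) * ∫ x, (w k x - w₀ x) ^ 2 < ε / 4 := by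
      rw [div_mul_eq_mul_div, one_mul, div_lt_iff₀ (by positivity)]
      linarith
    linarith

namespace HasWeakGrad

/-- A Lipschitz function has its pointwise derivative as weak gradient. -/
lemma of_lipschitz {L : ℝ≥0} (hu : LipschitzWith L u) :
    HasWeakGrad univ u fun a => deriv3 a u := by
  have hb : ∀ a x, |deriv3 a u x| ≤ L := fun a x =>
    (abs_deriv3_le a x).trans (norm_fderiv_le_of_lipschitz ℝ hu)
  have hm : ∀ a, Measurable (deriv3 a u) := fun a => measurable_fderiv_apply_const ℝ u (unit3 a)
  refine ⟨hu.continuous.continuousOn.locallyIntegrableOn MeasurableSet.univ, fun a => ?_,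
    fun η hη a => ?_⟩
  · exact locallyIntegrableOn_of_abs_le isOpen_univ
      ((continuousOn_const (c := (L : ℝ))).locallyIntegrableOn MeasurableSet.univ)
      (hm a).aestronglyMeasurable (.of_forall fun x => hb a x)
  obtain ⟨D, hD⟩ := ContDiff.lipschitzWith_of_hasCompactSupport hη.compact hη.smooth (by simp)
  have h := LipschitzWith.integral_lineDeriv_mul_eq (μ := (volume : Measure Space)) hu hD hη.compact (unit3 a)
  have e1 : ∀ x, lineDeriv ℝ η x (-unit3 a) = -deriv3 a η x := fun x => by
    rw [(hη.differentiable x).lineDeriv_eq_fderiv, map_neg, deriv3]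
  have e2 : (fun x => lineDeriv ℝ u x (unit3 a) * η x) =ᵐ[volume]
      fun x => deriv3 a u x * η x := by
    filter_upwards [hu.ae_differentiableAt] with x hx
    rw [hx.lineDeriv_eq_fderiv, deriv3]
  rw [integral_congr_ae e2] at h
  simp only [e1, neg_mul, integral_neg] at h
  rw [h, neg_neg]
  exact integral_congr_ae (.of_forall fun x => mul_comm _ _)

/-- Product with a Lipschitz function. -/
lemma mul_lipschitz (hU : IsOpen U) (h : HasWeakGrad U f F) {L : ℝ≥0} (hu : LipschitzWith L u) :
    HasWeakGrad U (fun x => u x * f x) fun a x => u x * F a x + deriv3 a u x * f x := by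
  have hw := of_lipschitz hu
  have hl : LocallyIntegrable u := hu.continuous.locallyIntegrable
  have hd : ∀ a, LocallyIntegrable (deriv3 a u) := fun a => locallyIntegrableOn_univ.1 (hw.2.1 a)
  have hk : ∀ k x, |moll k u x| ≤ |u x| + L := fun k x => by
    rw [moll_eq]
    have hi : Integrable fun t => mollKer k t * (|u x| + L) :=
      ((mollKer_smooth k).continuous.integrable_of_hasCompactSupport (mollKer_compact k)).mul_const _
    rw [← Real.norm_eq_abs]
    refine (norm_integral_le_of_norm_le hi (.of_forall fun t => ?_)).trans_eq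
      (by rw [integral_mul_const, mollKer_integral, one_mul])
    rw [Real.norm_eq_abs, abs_mul, abs_of_nonneg (mollKer_nonneg k t)]
    rcases eq_or_ne (mollKer k t) 0 with h0 | h0
    · simp [h0]
    refine mul_le_mul_of_nonneg_left ?_ (mollKer_nonneg k t)
    have h1 := hu.dist_le_mul (x - t) x
    simp only [Real.dist_eq, dist_eq_norm, sub_sub_cancel_left, norm_neg] at h1
    have h2 : ‖t‖ ≤ 1 := (mollKer_small h0).le.trans (by
      rw [div_le_one (by positivity)]; linarith [(k.cast_nonneg : (0 : ℝ) ≤ k)])
    calc |u (x - t)| = |(u (x - t) - u x) + u x| := by rw [sub_add_cancel]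
      _ ≤ _ := (abs_add_le _ _).trans
        (by rw [Real.norm_eq_abs] at h1; nlinarith [mul_le_mul_of_nonneg_left h2 L.coe_nonneg])
  have hk' : ∀ a k x, |moll k (deriv3 a u) x| ≤ L := fun a k x =>
    abs_moll_le_of_bdd k (fun y => (abs_deriv3_le a y).trans (norm_fderiv_le_of_lipschitz ℝ hu)) x
  refine of_tendsto_ae (w := fun k x => moll k u x * f x)
    (G := fun k a x => moll k u x * F a x + moll k (deriv3 a u) x * f x)
    (b := fun x => (|u x| + L) * |f x|)
    (B := fun a x => (|u x| + L) * |F a x| + L * |f x|) hU (fun k => ?_) ?_ (fun a => ?_)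
    (fun k => .of_forall fun x => ?_) (.of_forall fun x => ?_) (fun k a => .of_forall fun x => ?_)
    fun a => ?_
  · refine (h.mul_smooth hU (contDiff_moll k hl).contDiffOn).congr_ae hU (ae_eq_refl _)
      fun a => .of_forall fun x => ?_
    simp only [deriv3_moll hw k a x]
  · exact LocallyIntegrableOn.continuousOn_mul (h.1.norm)
      (hu.continuous.abs.add continuous_const).continuousOn hU.isLocallyClosed
  · exact (LocallyIntegrableOn.continuousOn_mul ((h.2.1 a).norm)
      (hu.continuous.abs.add continuous_const).continuousOn hU.isLocallyClosed).add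
      (h.1.norm.smul (L : ℝ))
  · rw [abs_mul]
    exact mul_le_mul_of_nonneg_right (hk k x) (abs_nonneg _)
  · exact (moll_tendsto_continuous hu.continuous x).mul_const _
  · refine (abs_add_le _ _).trans (add_le_add ?_ ?_) <;> rw [abs_mul]
    · exact mul_le_mul_of_nonneg_right (hk k x) (abs_nonneg _)
    · exact mul_le_mul_of_nonneg_right (hk' a k x) (abs_nonneg _)
  · filter_upwards [ae_restrict_of_ae (moll_tendsto_ae (hd a))] with x hx
    exact ((moll_tendsto_continuous hu.continuous x).mul_const _).add (hx.mul_const _)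

/-- The product rule in `H¹`. -/
lemma mul (hU : IsOpen U) (h : HasWeakGrad U f F) (h' : HasWeakGrad U u G)
    (hf : LocMemLp 2 U f) (hF : ∀ a, LocMemLp 2 U (F a)) (hu : LocMemLp 2 U u)
    (hG : ∀ a, LocMemLp 2 U (G a)) :
    HasWeakGrad U (fun x => f x * u x) fun a x => F a x * u x + f x * G a x := by
  refine ⟨hf.locallyIntegrableOn_mul hu hU, fun a =>
    ((hF a).locallyIntegrableOn_mul hu hU).add (hf.locallyIntegrableOn_mul (hG a) hU),
    fun η hη a => ?_⟩
  obtain ⟨χ, hχ, -, W, hW, hKW, hW1⟩ := exists_cutoff hU hη.compact hη.supp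
  obtain ⟨hg, hi, -⟩ := h.localize hU hχ
  obtain ⟨m0, m1⟩ := localize_sq hf hF hχ
  set f₀ := fun x => χ x * f x
  set H := fun a x => χ x * F a x + deriv3 a χ x * f x
  have hl : LocallyIntegrable f₀ := hi.locallyIntegrable
  have mk : ∀ {z : Space → ℝ}, MemLp z 2 → ∀ k, MemLp (moll k z) 2 := fun {z} hz k =>
    (memLp_two_iff_integrable_sq (contDiff_moll k (hz.locallyIntegrable one_le_two)).continuous.aestronglyMeasurable).2
      (integral_sq_moll_le k (hz.locallyIntegrable one_le_two) hz.integrable_sq).1
  have v1 : MemLp (fun x => u x * deriv3 a η x) 2 :=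
    hu.memLp_mul (hη.deriv a).continuous (hη.deriv a).compact (hη.deriv a).supp
  have v2 : MemLp (fun x => u x * η x) 2 := hu.memLp_mul hη.continuous hη.compact hη.supp
  have v3 : MemLp (fun x => G a x * η x) 2 := (hG a).memLp_mul hη.continuous hη.compact hη.supp
  have hid : ∀ k, (∫ x, u x * deriv3 a η x * moll k f₀ x) + ∫ x, u x * η x * moll k (H a) x =
      -∫ x, G a x * η x * moll k f₀ x := fun k => by
    have hb := hη.mul_left hU (contDiff_moll k hl).contDiffOn
    rw [← integral_add (f := fun x => u x * deriv3 a η x * moll k f₀ x)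
      (g := fun x => u x * η x * moll k (H a) x) (v1.integrable_mul (mk m0 k))
      (v2.integrable_mul (mk (m1 a) k))]
    refine Eq.trans ?_ ((h'.2.2 _ hb a).trans ?_)
    · refine integral_congr_ae (.of_forall fun x => ?_)
      simp only [deriv3_mul (((contDiff_moll k hl).differentiable (by simp)) x)
        (hη.differentiable x) a, deriv3_moll hg k a x]
      ring
    · congr 1
      exact integral_congr_ae (.of_forall fun x => by ring)
  have t0 := moll_tendsto_L2 hl m0.integrable_sq
  have t1 := moll_tendsto_L2 ((m1 a).locallyIntegrable one_le_two) (m1 a).integrable_sq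
  have key := tendsto_nhds_unique
    ((tendsto_integral_mul_of_L2 v1 (mk m0) m0 t0).add
      (tendsto_integral_mul_of_L2 v2 (mk (m1 a)) (m1 a) t1))
    (((tendsto_integral_mul_of_L2 v3 (mk m0) m0 t0).neg).congr fun k => (hid k).symm)
  have eW : ∀ x, x ∉ W → η x = 0 ∧ deriv3 a η x = 0 := fun x hx =>
    ⟨image_eq_zero_of_notMem_tsupport fun h => hx (hKW h),
      deriv3_eq_zero_of_notMem a fun h => hx (hKW h)⟩
  have c1 : ∫ x, u x * deriv3 a η x * f₀ x = ∫ x, f x * u x * deriv3 a η x :=
    integral_congr_ae (.of_forall fun x => by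
      by_cases hx : x ∈ W
      · simp only [f₀, hW1 x hx]; ring
      · simp [(eW x hx).2])
  have c2 : ∫ x, u x * η x * H a x = ∫ x, F a x * u x * η x :=
    integral_congr_ae (.of_forall fun x => by
      by_cases hx : x ∈ W
      · simp only [H, hW1 x hx, deriv3_eq_zero_of_eqOn_one hW hW1 a hx]; ring
      · simp [(eW x hx).1])
  have c3 : ∫ x, G a x * η x * f₀ x = ∫ x, f x * G a x * η x :=
    integral_congr_ae (.of_forall fun x => by
      by_cases hx : x ∈ W
      · simp only [f₀, hW1 x hx]; ring
      · simp [(eW x hx).1])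
  simp only [add_mul]
  rw [integral_add (hη.integrable_mul ((hF a).locallyIntegrableOn_mul hu hU))
    (hη.integrable_mul (hf.locallyIntegrableOn_mul (hG a) hU))]
  rw [c1, c2, c3] at key
  linarith

end HasWeakGrad

end Vale.Agent.P363
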