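import Vale.Agent.P363.Tool.Weak.Product

/-!
P363: approximation of weakly differentiable functions by test functions in mean square.
-/

noncomputable section

namespace Vale.Agent.P363

open MeasureTheory Set Filter Metric
open scoped BigOperators Topology ContDiff ENNReal

variable {U K : Set Space} {f w : Space → ℝ} {F W : Fin 3 → Space → ℝ}

/-- The gradient of a function vanishing outside a closed set vanishes there. -/
lemma HasWeakGrad.ae_zero_outside (hU : IsOpen U) (h : HasWeakGrad U w W) (hK : IsClosed K)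
    (h0 : ∀ x ∉ K, w x = 0) (a : Fin 3) :
    ∀ᵐ x ∂volume.restrict U, x ∉ K → W a x = 0 := by
  have ho : IsOpen (U \ K) := hU.sdiff hK
  have h2 : HasWeakGrad (U \ K) w fun _ _ => 0 := (HasWeakGrad.zero _).congr_ae ho
    ((ae_restrict_iff' ho.measurableSet).2 (.of_forall fun x hx => (h0 x hx.2).symm))
    fun _ => ae_eq_refl _
  have h1 := (ae_restrict_iff' ho.measurableSet).1 ((h.mono sdiff_subset).unique ho h2 a)
  exact (ae_restrict_iff' hU.measurableSet).2 (h1.mono fun x hx hxU hxK => hx ⟨hxU, hxK⟩)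

/-- A compactly supported weakly differentiable function is a limit of test functions. -/
lemma exists_bump_seq (hU : IsOpen U) (h : HasWeakGrad U w W) (hw : LocMemLp 2 U w)
    (hW : ∀ a, LocMemLp 2 U (W a)) (hK : IsCompact K) (hKU : K ⊆ U) (h0 : ∀ x ∉ K, w x = 0) :
    ∃ η : ℕ → Space → ℝ, (∀ k, IsBump U (η k)) ∧
      MemLp w 2 ∧ (∀ a, MemLp (U.indicator (W a)) 2) ∧
      Tendsto (fun k => ∫ x, (η k x - w x) ^ 2) atTop (𝓝 0) ∧
      (∀ a, Tendsto (fun k => ∫ x, (deriv3 a (η k) x - U.indicator (W a) x) ^ 2) atTop (𝓝 0)) ∧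
      (∀ᵐ x, Tendsto (fun k => η k x) atTop (𝓝 (w x))) ∧
      (∀ M, (∀ x, |w x| ≤ M) → ∀ k x, |η k x| ≤ M) ∧
      ((∀ x, 0 ≤ w x) → ∀ k x, 0 ≤ η k x) := by
  obtain ⟨χ, hχ, -, O, hO, hKO, hO1⟩ := exists_cutoff hU hK hKU
  obtain ⟨hG, hi, hiG⟩ := h.localize hU hχ
  obtain ⟨m0, m1⟩ := HasWeakGrad.localize_sq hw hW hχ
  have e0 : (fun x => χ x * w x) = w := funext fun x => by
    by_cases hx : x ∈ K
    · rw [hO1 x (hKO hx), one_mul]
    · rw [h0 x hx, mul_zero]
  rw [e0] at hG hi m0
  set G := fun a x => χ x * W a x + deriv3 a χ x * w x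
  have eG : ∀ a, G a =ᵐ[volume] U.indicator (W a) := fun a => by
    filter_upwards [(ae_restrict_iff' hU.measurableSet).1 ((hG.mono (subset_univ U)).unique hU h a)]
      with x hx
    by_cases hxU : x ∈ U
    · rw [indicator_of_mem hxU]; exact hx hxU
    · simp [G, hxU, hχ.eq_zero hxU, (hχ.deriv a).eq_zero hxU]
  obtain ⟨N, hN⟩ := eventually_atTop.1 (eventually_cthickening_subset hK hU hKU)
  have hl : LocallyIntegrable w := hi.locallyIntegrable
  have hs : Tendsto (fun k => k + N) atTop atTop := tendsto_atTop_atTop.2 fun b => ⟨b, fun a ha => by omega⟩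
  refine ⟨fun k => moll (k + N) w, fun k => isBump_moll hl hK h0 (hN _ (Nat.le_add_left N k)), m0,
    fun a => (m1 a).ae_eq (eG a), (moll_tendsto_L2 hl m0.integrable_sq).comp hs, fun a => ?_, ?_,
    fun M hM k x => abs_moll_le_of_bdd _ hM x, fun hpos k x => ?_⟩
  · refine ((moll_tendsto_L2 (hiG a).locallyIntegrable (m1 a).integrable_sq).comp hs).congr fun k => ?_
    refine integral_congr_ae ?_
    filter_upwards [eG a] with x hx
    simp only [deriv3_moll hG (k + N) a x, ← hx, G]
  · filter_upwards [moll_tendsto_ae hl] with x hx using hx.comp hs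
  · simp only [moll_eq]
    exact integral_nonneg fun t => mul_nonneg (mollKer_nonneg _ t) (hpos _)

lemma integral_sq_sub_le {u v z : Space → ℝ} (h1 : Integrable fun x => (u x - v x) ^ 2)
    (h2 : Integrable fun x => (v x - z x) ^ 2) :
    ∫ x, (u x - z x) ^ 2 ≤ 2 * (∫ x, (u x - v x) ^ 2) + 2 * ∫ x, (v x - z x) ^ 2 := by
  refine (integral_mono_of_nonneg (.of_forall fun x => sq_nonneg _)
    ((h1.const_mul 2).add (h2.const_mul 2)) (.of_forall fun x => ?_)).trans_eq ?_
  · simp only [Pi.add_apply]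
    nlinarith [sq_nonneg ((u x - v x) - (v x - z x))]
  · rw [integral_add' (h1.const_mul 2) (h2.const_mul 2), integral_const_mul, integral_const_mul]

/-- Test functions are dense in `H¹`. -/
lemma exists_bump_seq_univ (h : HasWeakGrad univ f F) (hf : MemLp f 2) (hF : ∀ a, MemLp (F a) 2) :
    ∃ η : ℕ → Space → ℝ, (∀ k, IsBump univ (η k)) ∧
      Tendsto (fun k => ∫ x, (η k x - f x) ^ 2) atTop (𝓝 0) ∧
      ∀ a, Tendsto (fun k => ∫ x, (deriv3 a (η k) x - F a x) ^ 2) atTop (𝓝 0) := by
  obtain ⟨θ, hθ, hθ01, O, hO, hBO, hO1⟩ :=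
    exists_cutoff isOpen_univ (isCompact_closedBall (0 : Space) 1) (subset_univ _)
  obtain ⟨D, hD⟩ := (hθ.compact.fderiv ℝ).exists_bound_of_continuous
    (hθ.smooth.continuous_fderiv (by simp))
  have hD0 : 0 ≤ D := (norm_nonneg _).trans (hD 0)
  set c : ℕ → ℝ := fun n => 1 / ((n : ℝ) + 1) with hc_def
  have hc : ∀ n, 0 < c n ∧ c n ≤ 1 := fun n => ⟨by positivity, by
    rw [hc_def, div_le_one (by positivity)]; linarith [(n.cast_nonneg : (0 : ℝ) ≤ n)]⟩
  have hc0 : Tendsto c atTop (𝓝 0) := tendsto_one_div_add_atTop_nhds_zero_nat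
  set χ : ℕ → Space → ℝ := fun n x => θ (c n • x) with hχ_def
  have hχs : ∀ n, ContDiff ℝ ∞ (χ n) := fun n => hθ.smooth.comp (contDiff_const_smul _)
  have hχd : ∀ n a x, |deriv3 a (χ n) x| ≤ c n * D := fun n a x => by
    have e : HasFDerivAt (χ n)
        ((fderiv ℝ θ (c n • x)).comp (c n • ContinuousLinearMap.id ℝ Space)) x :=
      (hθ.differentiable _).hasFDerivAt.comp x ((c n • ContinuousLinearMap.id ℝ Space).hasFDerivAt)
    rw [deriv3, e.fderiv]
    simp only [ContinuousLinearMap.comp_apply, ContinuousLinearMap.smul_apply,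
      ContinuousLinearMap.id_apply, map_smul, smul_eq_mul, abs_mul, abs_of_pos (hc n).1]
    exact mul_le_mul_of_nonneg_left
      ((abs_deriv3_le (η := θ) a (c n • x)).trans (hD _)) (hc n).1.le
  have hχ1 : ∀ x, ∀ᶠ n in atTop, χ n x = 1 := fun x => by
    have : Tendsto (fun n => c n • x) atTop (𝓝 0) := by simpa using hc0.smul_const x
    filter_upwards [this (hO.mem_nhds (hBO (mem_closedBall_self zero_le_one)))] with n hn
    exact hO1 _ hn
  have hχb : ∀ n, IsBump univ (χ n) := fun n =>
    ⟨hχs n, hθ.compact.comp_smul (hc n).1.ne', subset_univ _⟩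
  have hχa : ∀ n x, |χ n x| ≤ 1 := fun n x =>
    abs_le.2 ⟨by linarith [(hθ01 (c n • x)).1], (hθ01 _).2⟩
  set fn := fun n x => χ n x * f x
  set Fn := fun n a x => χ n x * F a x + deriv3 a (χ n) x * f x
  have hl : ∀ n, HasWeakGrad univ (fn n) (Fn n) := fun n => (h.localize isOpen_univ (hχb n)).1
  have hm : ∀ n, MemLp (fn n) 2 ∧ ∀ a, MemLp (Fn n a) 2 := fun n =>
    HasWeakGrad.localize_sq (LocMemLp.of_memLp hf) (fun a => LocMemLp.of_memLp (hF a)) (hχb n)
  have e1 : Tendsto (fun n => ∫ x, (fn n x - f x) ^ 2) atTop (𝓝 0) := by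
    have := tendsto_integral_of_dominated_convergence (μ := (volume : Measure Space))
      (F := fun n x => (fn n x - f x) ^ 2) (f := fun _ => 0) (fun x => 4 * f x ^ 2)
      (fun n => (((hm n).1.1.sub hf.1).pow 2)) (hf.integrable_sq.const_mul 4)
      (fun n => .of_forall fun x => ?_) (.of_forall fun x => ?_)
    · simpa using this
    · rw [Real.norm_eq_abs, abs_of_nonneg (sq_nonneg _)]
      have h1 := hχa n x
      rw [abs_le] at h1
      have : fn n x - f x = (χ n x - 1) * f x := by simp only [fn]; ring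
      rw [this, mul_pow]
      exact mul_le_mul_of_nonneg_right (by nlinarith) (sq_nonneg _)
    · refine tendsto_const_nhds.congr' ?_
      filter_upwards [hχ1 x] with n hn
      simp [fn, hn]
  have e2 : ∀ a, Tendsto (fun n => ∫ x, (Fn n a x - F a x) ^ 2) atTop (𝓝 0) := fun a => by
    have := tendsto_integral_of_dominated_convergence (μ := (volume : Measure Space))
      (F := fun n x => (Fn n a x - F a x) ^ 2) (f := fun _ => 0)
      (fun x => 8 * F a x ^ 2 + 2 * D ^ 2 * f x ^ 2)
      (fun n => ((((hm n).2 a).1.sub (hF a).1).pow 2))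
      (((hF a).integrable_sq.const_mul 8).add (hf.integrable_sq.const_mul _))
      (fun n => .of_forall fun x => ?_) (.of_forall fun x => ?_)
    · simpa using this
    · rw [Real.norm_eq_abs, abs_of_nonneg (sq_nonneg _)]
      have h1 := hχa n x
      rw [abs_le] at h1
      have h2 : deriv3 a (χ n) x ^ 2 ≤ D ^ 2 := sq_le_sq.2 (by
        rw [abs_of_nonneg hD0]
        exact (hχd n a x).trans (mul_le_of_le_one_left hD0 (hc n).2))
      have h3 : Fn n a x - F a x = (χ n x - 1) * F a x + deriv3 a (χ n) x * f x := by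
        simp only [Fn]; ring
      rw [h3]
      nlinarith [sq_nonneg ((χ n x - 1) * F a x - deriv3 a (χ n) x * f x),
        mul_le_mul_of_nonneg_right h2 (sq_nonneg (f x)),
        mul_nonneg (show (0 : ℝ) ≤ 4 - (χ n x - 1) ^ 2 by nlinarith) (sq_nonneg (F a x))]
    · have hd : Tendsto (fun n => deriv3 a (χ n) x) atTop (𝓝 0) :=
        squeeze_zero_norm (fun n => hχd n a x) (by simpa using hc0.mul_const D)
      have hχt : Tendsto (fun n => χ n x) atTop (𝓝 1) :=
        tendsto_const_nhds.congr' ((hχ1 x).mono fun n hn => hn.symm)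
      simpa using (((hχt.mul_const (F a x)).add (hd.mul_const (f x))).sub_const (F a x)).pow 2
  have hbs := fun n => exists_bump_seq isOpen_univ (hl n) (LocMemLp.of_memLp (hm n).1)
    (fun a => LocMemLp.of_memLp ((hm n).2 a)) (hχb n).compact (subset_univ _)
    (fun x hx => by simp [fn, image_eq_zero_of_notMem_tsupport hx])
  choose η hη _ _ he he' _ _ _ using hbs
  simp only [indicator_univ] at he'
  have hk : ∀ n, ∃ k, (∫ x, (η n k x - fn n x) ^ 2) ≤ c n ∧
      ∀ a, (∫ x, (deriv3 a (η n k) x - Fn n a x) ^ 2) ≤ c n := fun n =>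
    (((he n).eventually_le_const (hc n).1).and
      (eventually_all.2 fun a => (he' n a).eventually_le_const (hc n).1)).exists
  choose kk hk1 hk2 using hk
  have mη : ∀ {u : Space → ℝ}, IsBump univ u → MemLp u 2 := fun {u} hu =>
    hu.continuous.memLp_of_hasCompactSupport hu.compact
  refine ⟨fun n => η n (kk n), fun n => hη n (kk n), ?_, fun a => ?_⟩
  · refine squeeze_zero (fun n => integral_nonneg fun x => sq_nonneg _) (fun n => ?_)
      (by simpa using (hc0.const_mul 2).add (e1.const_mul 2))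
    refine (integral_sq_sub_le ((mη (hη n _)).sub (hm n).1).integrable_sq
      ((hm n).1.sub hf).integrable_sq).trans ?_
    linarith [hk1 n]
  · refine squeeze_zero (fun n => integral_nonneg fun x => sq_nonneg _) (fun n => ?_)
      (by simpa using (hc0.const_mul 2).add ((e2 a).const_mul 2))
    refine (integral_sq_sub_le ((mη ((hη n _).deriv a)).sub ((hm n).2 a)).integrable_sq
      (((hm n).2 a).sub (hF a)).integrable_sq).trans ?_
    linarith [hk2 n a]

end Vale.Agent.P363
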