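import Vale.Agent.P363.Tool.Weak.H1

/-!
P363: weak equations and inequalities tested with compactly supported `H¹` functions.
-/

noncomputable section

namespace Vale.Agent.P363

open MeasureTheory Set Filter Metric
open scoped BigOperators Topology ContDiff ENNReal

variable {U K : Set Space} {f h w η : Space → ℝ} {F W : Fin 3 → Space → ℝ}

/-- The Laplacian falls on the weak gradient. -/
lemma HasWeakGrad.integral_mul_lap_eq (g : HasWeakGrad U f F) (hη : IsBump U η) :
    ∫ x, f x * lap η x = -∫ x, ∑ a, F a x * deriv3 a η x := by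
  rw [integral_finsetSum _ fun a _ => (hη.deriv a).integrable_mul (g.2.1 a)]
  simp only [lap, Finset.mul_sum]
  rw [integral_finsetSum _ fun a _ => ((hη.deriv a).deriv a).integrable_mul g.1,
    ← Finset.sum_neg_distrib]
  exact Finset.sum_congr rfl fun a _ => g.2.2 _ (hη.deriv a) a

lemma WeakSubPoisson.grad_le (e : WeakSubPoisson U f h) (g : HasWeakGrad U f F) (hη : IsBump U η)
    (h0 : ∀ x, 0 ≤ η x) : ∫ x, ∑ a, F a x * deriv3 a η x ≤ -∫ x, h x * η x := by
  have := e.2.2 η hη h0
  rw [g.integral_mul_lap_eq hη] at this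
  linarith

lemma exists_test_seq_bdd (hU : IsOpen U) (hF : ∀ a, LocMemLp 2 U (F a))
    (hh : LocallyIntegrableOn h U) (hw : HasWeakGrad U w W) (hW : ∀ a, LocMemLp 2 U (W a))
    (hK : IsCompact K) (hKU : K ⊆ U) (h0 : ∀ x ∉ K, w x = 0) {M : ℝ} (hM : ∀ x, |w x| ≤ M) :
    ∃ η : ℕ → Space → ℝ, (∀ k, IsBump U (η k)) ∧
      Tendsto (fun k => ∫ x, ∑ a, F a x * deriv3 a (η k) x) atTop
        (𝓝 (∫ x in U, ∑ a, F a x * W a x)) ∧
      Tendsto (fun k => ∫ x, h x * η k x) atTop (𝓝 (∫ x, h x * w x)) ∧
      ((∀ x, 0 ≤ w x) → ∀ k x, 0 ≤ η k x) := by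
  obtain ⟨L, hL, hKL, hLU⟩ := exists_compact_between hK hU hKU
  set V := interior L
  have hV : IsOpen V := isOpen_interior
  have hVU : V ⊆ U := interior_subset.trans hLU
  have hwl : LocMemLp 2 V w := fun Q hQ hQV => by
    have : IsFiniteMeasure (volume.restrict Q) := isFiniteMeasure_restrict.2 hQ.measure_lt_top.ne
    exact MemLp.of_bound (hw.1.aestronglyMeasurable.mono_measure
      (Measure.restrict_mono (hQV.trans hVU) le_rfl)) M (.of_forall fun x => by simpa using hM x)
  obtain ⟨η, hη, -, mW, -, hd, hae, hb, hpos⟩ :=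
    exists_bump_seq hV (hw.mono hVU) hwl (fun a => (hW a).mono hVU) hK hKL h0
  have hηU : ∀ k, IsBump U (η k) := fun k => (hη k).mono hVU
  refine ⟨η, hηU, ?_, ?_, hpos⟩
  · have mF : ∀ a, MemLp (L.indicator (F a)) 2 := fun a =>
      (memLp_indicator_iff_restrict hL.isClosed.measurableSet).2 (hF a L hL hLU)
    have t := fun a => tendsto_integral_mul_of_L2 (mF a)
      (fun k => ((hη k).deriv a).continuous.memLp_of_hasCompactSupport ((hη k).deriv a).compact)
      (mW a) (hd a)
    have e1 : ∀ k, ∫ x, ∑ a, F a x * deriv3 a (η k) x =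
        ∑ a, ∫ x, L.indicator (F a) x * deriv3 a (η k) x := fun k => by
      rw [← integral_finsetSum (f := fun a x => L.indicator (F a) x * deriv3 a (η k) x) _
        fun a _ => (mF a).integrable_mul (show MemLp (deriv3 a (η k)) 2 from
          ((hη k).deriv a).continuous.memLp_of_hasCompactSupport ((hη k).deriv a).compact)]
      refine integral_congr_ae (.of_forall fun x => Finset.sum_congr rfl fun a _ => ?_)
      by_cases hx : x ∈ L
      · rw [indicator_of_mem hx]
      · rw [((hη k).deriv a).eq_zero fun h => hx (interior_subset h)]; simp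
    have e2 : ∫ x in U, ∑ a, F a x * W a x =
        ∑ a, ∫ x, L.indicator (F a) x * V.indicator (W a) x := by
      rw [← integral_finsetSum (f := fun a x => L.indicator (F a) x * V.indicator (W a) x) _
          fun a _ => (mF a).integrable_mul (mW a),
        ← integral_indicator hU.measurableSet]
      refine integral_congr_ae ?_
      filter_upwards [(ae_restrict_iff' hU.measurableSet).1
        (ae_all_iff.2 fun a => hw.ae_zero_outside hU hK.isClosed h0 a)] with x hx
      by_cases hxU : x ∈ U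
      · rw [indicator_of_mem hxU]
        refine Finset.sum_congr rfl fun a _ => ?_
        by_cases hxV : x ∈ V
        · rw [indicator_of_mem hxV, indicator_of_mem (interior_subset hxV)]
        · rw [hx hxU a fun h => hxV (hKL h), indicator_of_notMem hxV]; simp
      · have hxV : x ∉ V := fun h => hxU (hVU h)
        simp [hxU, hxV]
    simp only [e1, e2]
    exact tendsto_finsetSum _ fun a _ => t a
  · refine tendsto_integral_of_dominated_convergence (fun x => L.indicator (fun x => M * |h x|) x)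
      (fun k => ((hηU k).integrable_mul hh).aestronglyMeasurable)
      ((integrable_indicator_iff hL.isClosed.measurableSet).2
        ((hh.integrableOn_compact_subset hLU hL).abs.const_mul M))
      (fun k => .of_forall fun x => ?_) ?_
    · by_cases hx : x ∈ L
      · rw [indicator_of_mem hx, Real.norm_eq_abs, abs_mul, mul_comm M]
        exact mul_le_mul_of_nonneg_left (hb M hM k x) (abs_nonneg _)
      · rw [indicator_of_notMem hx, (hη k).eq_zero fun h => hx (interior_subset h)]; simp
    · filter_upwards [hae] with x hx using hx.const_mul _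

lemma tendsto_trunc (hU : IsOpen U) (hF : ∀ a, LocMemLp 2 U (F a))
    (hw : HasWeakGrad U w W) (hW : ∀ a, LocMemLp 2 U (W a))
    (hK : IsCompact K) (hKU : K ⊆ U) (h0 : ∀ x ∉ K, w x = 0)
    (hwm : Integrable fun x => h x * w x) (hh : LocallyIntegrableOn h U) :
    let wn := fun (n : ℕ) x => max (-(n : ℝ)) (min (n : ℝ) (w x))
    let Wn := fun (n : ℕ) a x => if -(n : ℝ) < w x ∧ w x < (n : ℝ) then W a x else 0
    (∀ n, HasWeakGrad U (wn n) (Wn n) ∧ (∀ a, LocMemLp 2 U (Wn n a)) ∧
      (∀ x ∉ K, wn n x = 0) ∧ (∀ x, |wn n x| ≤ n) ∧ ((∀ x, 0 ≤ w x) → ∀ x, 0 ≤ wn n x)) ∧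
    Tendsto (fun n => ∫ x in U, ∑ a, F a x * Wn n a x) atTop
      (𝓝 (∫ x in U, ∑ a, F a x * W a x)) ∧
    Tendsto (fun n => ∫ x, h x * wn n x) atTop (𝓝 (∫ x, h x * w x)) := by
  intro wn Wn
  have hn : ∀ n, HasWeakGrad U (wn n) (Wn n) := fun n => hw.clamp hU n.cast_nonneg
  have hW' : ∀ n a, LocMemLp 2 U (Wn n a) := fun n a Q hQ hQU =>
    (hW a Q hQ hQU).of_le (((hn n).2.1 a).aestronglyMeasurable.mono_measure
      (Measure.restrict_mono hQU le_rfl)) (.of_forall fun x => by
        simp only [Wn]; split_ifs <;> simp)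
  have hz : ∀ n, ∀ x ∉ K, wn n x = 0 := fun n x hx => by simp [wn, h0 x hx]
  have hbd : ∀ n x, |wn n x| ≤ n := fun n x => abs_le.2 ⟨le_max_left _ _,
    max_le (by linarith [(n.cast_nonneg : (0 : ℝ) ≤ n)]) (min_le_left _ _)⟩
  have hev : ∀ x, ∀ᶠ n : ℕ in atTop, -(n : ℝ) < w x ∧ w x < n := fun x => by
    filter_upwards [tendsto_natCast_atTop_atTop.eventually_gt_atTop |w x|] with n hn
    exact ⟨by linarith [neg_abs_le (w x)], lt_of_le_of_lt (le_abs_self _) hn⟩
  have hle : ∀ n x, |wn n x| ≤ |w x| := fun n x => by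
    have hn0 : (0 : ℝ) ≤ n := n.cast_nonneg
    refine abs_le.2 ⟨?_, max_le (by linarith [abs_nonneg (w x)])
      ((min_le_right _ _).trans (le_abs_self _))⟩
    exact le_max_of_le_right (le_min (by linarith [abs_nonneg (w x)]) (neg_abs_le _))
  refine ⟨fun n => ⟨hn n, hW' n, hz n, hbd n, fun hp x => le_max_of_le_right
    (le_min n.cast_nonneg (hp x))⟩, ?_, ?_⟩
  · refine tendsto_integral_of_dominated_convergence
      (fun x => K.indicator (fun x => ∑ a, |F a x * W a x|) x) (fun n => ?_) ?_ (fun n => ?_) ?_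
    · refine Finset.aestronglyMeasurable_fun_sum _ fun a _ => ?_
      exact ((hF a).locallyIntegrableOn one_le_two hU).aestronglyMeasurable.mul
        ((hn n).2.1 a).aestronglyMeasurable
    · refine ((integrable_indicator_iff hK.isClosed.measurableSet).2 ?_).restrict
      exact integrable_finsetSum _ fun a _ => ((hF a K hK hKU).integrable_mul (hW a K hK hKU)).abs
    · filter_upwards [ae_all_iff.2 fun a => hw.ae_zero_outside hU hK.isClosed h0 a] with x hx
      by_cases hxK : x ∈ K
      · rw [indicator_of_mem hxK, Real.norm_eq_abs]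
        refine (Finset.abs_sum_le_sum_abs _ _).trans (Finset.sum_le_sum fun a _ => ?_)
        simp only [Wn]; split_ifs
        · exact le_rfl
        · simp only [mul_zero, abs_zero]; exact abs_nonneg _
      · rw [indicator_of_notMem hxK]
        simp [Wn, fun a => hx a hxK]
    · refine .of_forall fun x => tendsto_const_nhds.congr' ?_
      filter_upwards [hev x] with n hn
      simp [Wn, hn]
  · refine tendsto_integral_of_dominated_convergence (fun x => |h x * w x|) (fun n => ?_) hwm.abs
      (fun n => .of_forall fun x => ?_) (.of_forall fun x => tendsto_const_nhds.congr' ?_)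
    · have h1 : AEStronglyMeasurable (fun x => h x * wn n x) (volume.restrict K) :=
        (hh.aestronglyMeasurable.mul (hn n).1.aestronglyMeasurable).mono_measure
          (Measure.restrict_mono hKU le_rfl)
      refine ((aestronglyMeasurable_indicator_iff hK.isClosed.measurableSet).2 h1).congr
        (.of_forall fun x => ?_)
      by_cases hx : x ∈ K
      · simp [hx]
      · simp [hx, hz n x hx]
    · rw [Real.norm_eq_abs, abs_mul, abs_mul]
      exact mul_le_mul_of_nonneg_left (hle n x) (abs_nonneg _)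
    · filter_upwards [hev x] with n hn
      simp [wn, min_eq_right hn.2.le, max_eq_right hn.1.le]

/-- A weak equation tested with a compactly supported `H¹` function. -/
theorem WeakPoisson.test (hU : IsOpen U) (e : WeakPoisson U f h) (g : HasWeakGrad U f F)
    (hF : ∀ a, LocMemLp 2 U (F a)) (hw : HasWeakGrad U w W) (hW : ∀ a, LocMemLp 2 U (W a))
    (hK : IsCompact K) (hKU : K ⊆ U) (h0 : ∀ x ∉ K, w x = 0)
    (hhw : Integrable fun x => h x * w x) :
    ∫ x in U, ∑ a, F a x * W a x = -∫ x, h x * w x := by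
  obtain ⟨hn, t1, t2⟩ := tendsto_trunc hU hF hw hW hK hKU h0 hhw e.2.1
  refine tendsto_nhds_unique t1 (t2.neg.congr fun n => ?_)
  obtain ⟨η, hη, s1, s2, -⟩ := exists_test_seq_bdd hU hF e.2.1 (hn n).1 (hn n).2.1 hK hKU
    (hn n).2.2.1 (hn n).2.2.2.1
  exact (tendsto_nhds_unique s1 (s2.neg.congr fun k => (e.grad_eq g (hη k)).symm)).symm

/-- A weak inequality tested with a nonnegative compactly supported `H¹` function. -/
theorem WeakSubPoisson.test (hU : IsOpen U) (e : WeakSubPoisson U f h) (g : HasWeakGrad U f F)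
    (hF : ∀ a, LocMemLp 2 U (F a)) (hw : HasWeakGrad U w W) (hW : ∀ a, LocMemLp 2 U (W a))
    (hK : IsCompact K) (hKU : K ⊆ U) (h0 : ∀ x ∉ K, w x = 0) (hpos : ∀ x, 0 ≤ w x)
    (hhw : Integrable fun x => h x * w x) :
    ∫ x in U, ∑ a, F a x * W a x ≤ -∫ x, h x * w x := by
  obtain ⟨hn, t1, t2⟩ := tendsto_trunc hU hF hw hW hK hKU h0 hhw e.2.1
  refine le_of_tendsto_of_tendsto' t1 t2.neg fun n => ?_
  obtain ⟨η, hη, s1, s2, hp⟩ := exists_test_seq_bdd hU hF e.2.1 (hn n).1 (hn n).2.1 hK hKU
    (hn n).2.2.1 (hn n).2.2.2.1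
  exact le_of_tendsto_of_tendsto' s1 s2.neg
    fun k => e.grad_le g (hη k) (hp ((hn n).2.2.2.2 hpos) k)

end Vale.Agent.P363
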